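import Vale.Agent.P280Z.Pr.Defs
import Vale.Agent.P280Z.Rh.Api
import Vale.Agent.P280Z.Rh.Int
import Vale.Agent.P280Z.Ma.Rel
import Vale.Agent.P280Z.Gm.Rt
import Vale.Agent.P280Z.Hr.Tdx
import Vale.Agent.P281Z.Mf.Sub

/-!
# P280Z, block Pr: rows ADJF and G3X
-/

open scoped Manifold ContDiff Topology Matrix
open Set Filter
open Vale.Agent.P272.K Vale.Agent.P285.H281.FD Vale.Agent.P281Z
open Vale.Agent.P277 (Bd.inv)
open Vale.Agent.P280Z.Gm (Fa)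
open Vale.Agent.P280Z.Rh

noncomputable section

namespace Vale.Agent.P280Z.Pr

/-- **row ADJF** -/
theorem adjf : ADJF := by
  intro T hT n y d V Y Z π h i b hi hd k
  have R := Ma.rel_of vbl
  have h2 : T.pull hi.hol (T.pull h.hol (T.ps Y (VB.tan y Y.X) (k + 1))) = 0 := by
    rw [← hT.rg.pull_comp hi.hol h.hol (holM_const b) fun z => (hi.fib z).symm]
    exact Ma.pull_const hT b (hT.ch.deg Y _ _)
  have hc := Gm.FibiH.cart hd h hi
  obtain ⟨E, hE⟩ := R.ex π d h hd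
  obtain ⟨E', hE'⟩ := R.ex _ d hc.sf' (zero_add d).symm
  refine ⟨?_, h2⟩
  rw [(R.ps T hT h.hol hE).2.2, (R.ps T hT hc.sf'.hol hE').2.2, R.bc T hT hc hE hE', map_add, h2,
    ← hT.ch.deg Gm.FibiH.pt _ (k + 1), hT.rg.pr_zero _ _ _ k.succ_pos, map_zero]

/-- **row G3X** -/
theorem g3x_of (hA : ADJF) : G3X := by
  intro T hT n y V Y π h hd hF hY hc c c' k1 k2
  obtain ⟨b⟩ : Nonempty Y.X := inferInstance
  obtain ⟨⟨Z, i, hi⟩, k⟩ := Gm.fibi T hT.ok π b hd h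
  have e : ∀ j, T.pull hi.hol (tr T h.hol (j + 1)) = T.ps Z (VB.tan 2 Z.X) (j + 1) := fun j => by
    rw [tr, map_sub, (hA T hT.ok h hi hd j).2, (hA T hT.ok h hi hd j).1, sub_zero]
  have e1 := k Z i hi _ _ k1
  have e2 := k Z i hi _ _ k2
  rw [map_pow, e 0] at e1
  rw [e 1] at e2
  have kZ : T.Kc Z (cX T Z) := by
    rw [cX, (hA T hT.ok h hi hd 0).1, hT.ok.ch.tan]
    exact Ma.kc_pull hT.ok hi.hol (fun z v hv => hi.imm z _ _ (at_ch _) (at_ch _)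
      (hv.trans (map_zero _).symm)) hF
  have hZ : Fano 2 Z.X := (fano_iff hT.ok Z).2 ⟨hi.conn.2 (hc b), kZ⟩
  have r := (Gm.rt T hT.ok hT.hrr).1 Z hZ.1 (fa_of hT.ok hZ)
  rw [CT.RR, Hr.coeff_td _ _ (by norm_num), Hr.tdx, zero_add, smul_pow, map_add, map_smul, map_smul,
    map_smul, e1, e2, smul_eq_mul, smul_eq_mul, smul_eq_mul] at r
  obtain ⟨z, hz⟩ := int_ T hT.ok Z (fun _ => Bd.inv (Bd.can 2 Z.X)) ⟨_, lb_inv (lb_can Z), hZ.2⟩
    fun _ => lb_inv (lb_can Z)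
  rw [Finset.prod_const, Finset.card_fin, c1_acan hT.ok, e1] at hz
  refine ⟨fun g => ?_, fun g => by linarith⟩
  have : (5 : ℝ) * z = 36 := by linarith
  have : 5 * z = 36 := by exact_mod_cast this
  omega

end Vale.Agent.P280Z.Pr
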