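import Vale.Agent.P280Z.Pr.Defs
import Vale.Agent.P280Z.Rh.Api
import Vale.Agent.P280Z.Ma.Rel

/-!
# P280Z, block Pr: the numerical structure of a family and its quotient
-/

open scoped Manifold ContDiff Topology Matrix
open Set Filter
open Vale.Agent.P272.K Vale.Agent.P285.H281.FD Vale.Agent.P281Z
open Vale.Agent.P280Z.Rh Vale.Agent.P280Z.Ma

noncomputable section

namespace Vale.Agent.P280Z.Pr

namespace FaxH

variable {T : CT} {n : ℕ} {V : Mf n} {J : Type} {F : J → Fm T V} {j : J} (Q : Qt F {j})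

theorem inv_pull (b : T.H Q.Y) : (F j).Inv (T.pull Q.sub.hol b) :=
  (Q.s4 _).2 ⟨b, rfl⟩ j (mem_singleton j)

theorem iv_pull (hT : T.OK) {k : ℕ} {b : T.H Q.Y} (hb : T.Dg Q.Y k b) :
    Iv (nsm (F j)) k (T.pull Q.sub.hol b) :=
  ⟨Ma.dg_pull hT _ hb, inv_pull Q b⟩

theorem iv_ex (hT : T.OK) {k : ℕ} {a : T.H V} (h : Iv (nsm (F j)) k a) :
    ∃ b, T.Dg Q.Y k b ∧ a = T.pull Q.sub.hol b :=
  Q.ex_dg hT h.1 fun i hi => by rw [mem_singleton_iff.1 hi]; exact h.2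

theorem vol (hT : T.OK) (hc : ConnectedSpace V.X) : ∃ D : ℝ, 0 < D ∧
    ∀ b, T.int V ((F j).η ^ Q.d * T.pull Q.sub.hol b) = D * T.int Q.Y b := by
  obtain ⟨D, hD, k⟩ := push_vol hT Q.sub Q.dim Q.onto (Q.conn hc) (F j).kη
  refine ⟨D, hD, fun b => ?_⟩
  rw [← hT.pu.int Q.sub, hT.pu.proj Q.sub, k, ← Algebra.smul_def, map_smul, smul_eq_mul]

end FaxH

open FaxH in
/-- row FAX -/
theorem fax : FAX := by
  intro T hT n V J F j Q hc
  obtain ⟨E, hE⟩ := (rel_of vbl).ex Q.π Q.d Q.sub Q.dim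
  obtain ⟨hv, hr, hp⟩ := (rel_of vbl).ps T hT Q.sub.hol hE
  have ht : tr T Q.sub.hol = T.ps V E := funext fun k => by rw [tr, hp k, add_sub_cancel_right]
  have hY := Q.conn hc
  obtain ⟨D, hD, hv'⟩ := vol Q hT hc
  obtain ⟨w, hw⟩ := (hT.po.kah Q.Y).1 Q.kah
  refine ⟨(F j).ns, Q.dim, fun k => ?_, ?_, fun e he i hi => ?_, fun k => ?_, ?_,
    fun a ha => ⟨_, (F j).hdg a ha⟩, fun k a hk ha => ?_,
    ⟨T.pull Q.sub.hol (w ^ Q.y), iv_pull Q hT (dg_pow hT (hT.po.deg hw) _), fun a ha => ?_, ?_⟩,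
    fun k a ha h => ?_⟩
  · rw [ht]; exact hT.ch.deg V E k
  · rw [ht, hT.ch.zero V E hv, hr]
  · rw [ht] at he; exact hT.ch.rank V E hv e he i (hr ▸ hi)
  · have : (nsm (F j)).pX k - tr T Q.sub.hol k =
        T.pull Q.sub.hol (T.ps Q.Y (VB.tan Q.y Q.Y.X) k) := sub_sub_cancel _ _
    rw [this]
    exact inv_pull Q _
  · have h1 := (F j).hdg _ (show T.Dg V 1 (tr T Q.sub.hol 1) by rw [ht]; exact hT.ch.deg V E 1)
    refine h1.trans ?_
    rw [tr, map_sub, (F j).c1, Q.dg_pull hT (mem_singleton j) (hT.ch.deg _ _ 1), sub_zero, map_add,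
      map_natCast, map_ofNat]
  · obtain ⟨b, hb, rfl⟩ := iv_ex Q hT ha
    rw [← hb, hT.rg.pr_zero _ _ _ hk, map_zero]
  · obtain ⟨b, hb, rfl⟩ := iv_ex Q hT ha
    obtain ⟨a', ha', rfl⟩ := (hT.ho.hl hw 0 Q.y (by omega)).2 b (by rwa [zero_add])
    obtain ⟨c, rfl⟩ := hT.rg.h0 Q.Y inferInstance a' ha'
    exact ⟨c, by rw [mul_comm, ← Algebra.smul_def, map_smul]⟩
  · obtain ⟨y⟩ : Nonempty Q.Y.X := inferInstance
    exact (hv' _).symm ▸ mul_pos hD (kc_vol hT hw y)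
  · obtain ⟨b, -, rfl⟩ := iv_ex Q hT ha
    have : b = 0 := hT.ho.pd Q.Y Q.kah b fun b' => by
      rw [← hT.rg.pr_sum Q.Y b', Finset.mul_sum, map_sum]
      refine Finset.sum_eq_zero fun i _ => ?_
      have k := h i _ (iv_pull Q hT ((hT.rg.pr_pr Q.Y i i b').trans (if_pos rfl)))
      rw [← map_mul] at k
      exact (mul_eq_zero.1 ((hv' _).symm.trans k)).resolve_left hD.ne'
    rw [this, map_zero]

end Vale.Agent.P280Z.Pr
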