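import Vale.Agent.P280Z.Pr.Defs
import Vale.Agent.P280Z.Rh.Api

/-!
# P280Z, block Pr: a family that splits off, and fibres of dimension two
-/

open scoped Manifold ContDiff Topology Matrix
open Set Filter
open Vale.Agent.P272.K Vale.Agent.P285.H281.FD Vale.Agent.P281Z Vale.Agent.P280Z.Ma
open Vale.Agent.P280Z.Rh

noncomputable section

namespace Vale.Agent.P280Z.Pr

variable {T : CT} {n y d : ℕ} {V : Mf n} {Y : Mf y} {π : V.X → Y.X}

theorem prj_int (hT : T.OK) (h : Sub n y π) {a : T.H V} {c : ℝ}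
    (e : T.push π a = algebraMap ℝ _ c) (b : T.H Y) :
    T.int V (a * T.pull h.hol b) = c * T.int Y b := by
  rw [← hT.pu.int h, hT.pu.proj h, e, ← Algebra.smul_def, map_smul, smul_eq_mul]

theorem prj_push (hT : T.OK) (h : Sub n y π) (hd : n = y + d) (hc : ConnectedSpace Y.X)
    {a : T.H V} (ha : T.Dg V d a) : ∃ c : ℝ, T.push π a = algebraMap ℝ _ c :=
  hT.rg.h0 Y inferInstance _ (by rw [CT.Dg, hT.pu.deg h d hd, zero_add, ha])

theorem prj_un (hT : T.OK) (B : Bas T V) (j : B.J) : Un (nsm (B.F j)) (B.H j) := by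
  have h1 := hT.po.deg (B.nn j)
  refine ⟨h1, ((B.F j).hdg _ h1).trans ?_⟩
  rw [B.dual, if_pos rfl, map_one]

theorem prj_hS (B : Bas T V) (j : B.J) : hS B {j} = B.H j := by
  unfold hS
  refine (Finset.sum_eq_single j (fun i _ hi => ?_) fun h => (h (Finset.mem_univ j)).elim).trans ?_
  · exact if_neg (show i ∉ ({j} : Set B.J) from hi)
  · exact if_pos (mem_singleton j)

theorem prj_of (hF : FAX) (hA : ALX) (hP : POSJ) (hR : RD) (hD : PROD) : PRJ := by
  intro T th n V B ih cl i j hij hd cm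
  have hT := th.ok
  obtain ⟨cV, kV⟩ := (fano_iff hT V).1 cl.1
  have fa := hF T hT B.F j (B.Q {j}) cV
  obtain ⟨w, hw, ew⟩ := B.pH j
  obtain ⟨⟨w0, hw0, e0⟩, pos⟩ := hP T hT B cV {j}
  have dw := hT.po.deg hw
  have x0 : B.H j ^ ((B.Q {j}).d + 1) = 0 := by
    rw [ew, ← map_pow, ← dg_pow hT dw _, hT.rg.pr_zero _ _ _ (by omega), map_zero]
  have t1 := hA _ _ _ _ _ _ fa cm _ (prj_un hT B j) x0
  have d1 := hR _ _ _ _ _ _ fa
  have dim := (B.Q {j}).dim
  have y0 : 0 < (B.Q {j}).y := Nat.pos_of_ne_zero fun h => by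
    have k := (B.Q {j}).pow_zero' hT (hT.po.deg (B.nn i)) (k := 1)
      (fun l hl => by rw [show l = j from hl, B.dual, if_neg hij.symm]) (by omega)
    have k' := B.dual i i
    rw [pow_one] at k
    rw [k, map_zero, if_pos rfl] at k'
    exact zero_ne_one k'
  refine hD T hT (B.Q {j}).sub (B.Q {j}ᶜ).sub (by omega) ((hT.po.kah V).2 ⟨_, kV⟩)
    ((B.Q _).conn cV) (B.Q _).fib ⟨(((B.F j).m : ℝ) + 2) • w, ?_, ?_⟩
    ⟨w0 ^ (B.Q {j}).y, w ^ (B.Q {j}).d, dg_pow hT (hT.po.deg hw0) _, ?_⟩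
    (ih _ (by omega) _ (B.cls _)) (ih _ (by omega) _ (B.cls _))
  · rw [CT.Dg, map_smul, dw]
  · rw [t1, map_smul, ← ew]
  · rw [map_pow, map_pow, ← ew, ← e0, mul_comm, ← prj_hS B j]
    exact pos.ne'

theorem pl2_of (hF : FAX) (h2 : G2) (h3 : G3X) : PL2 := by
  intro T th n V B cl j hm hd
  have hT := th.ok
  have cV := ((fano_iff hT V).1 cl.1).1
  have fa := hF T hT B.F j (B.Q {j}) cV
  rw [hm, hd] at fa
  have dim := fa.dim
  have cY := (B.Q {j}).conn cV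
  have sb := (B.Q {j}).sub
  obtain ⟨c, hc⟩ := prj_push hT sb dim cY (dg_pow hT (fa.dt 1) 2)
  obtain ⟨c', hc'⟩ := prj_push hT sb dim cY (fa.dt 2)
  obtain ⟨D, hD⟩ := prj_push hT sb dim cY (dg_pow hT fa.ok.dη 2)
  obtain ⟨o, io, -, po⟩ := fa.top
  obtain ⟨b, -, eb⟩ := (B.Q {j}).ex_dg hT io.1 fun l hl => by
    rw [show l = j from hl]; exact io.2
  have a1 := prj_int hT sb hc b
  have a2 := prj_int hT sb hc' b
  have a3 := prj_int hT sb hD b
  rw [← eb] at a1 a2 a3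
  have b0 : T.int _ b ≠ 0 := fun h => by
    rw [h, mul_zero] at a3
    exact po.ne' a3
  obtain ⟨k1, k2⟩ := h3 T th sb dim (fa_of hT cl.1) cY (B.Q {j}).fib c c' hc hc'
  rcases h2 _ _ _ _ fa with k | k
  · refine ⟨k, hc.trans ?_⟩
    have e := (congrArg (3 * ·) a2).symm.trans ((k o io).trans a1)
    rw [k2 (mul_right_cancel₀ b0 ((mul_assoc _ _ _).trans e))]
    exact map_ofNat _ 9
  · have e := (congrArg (3 * ·) a2).symm.trans ((k o io).trans (congrArg Neg.neg a1))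
    exact (k1 (mul_right_cancel₀ b0 ((mul_assoc _ _ _).trans (e.trans (neg_mul _ _).symm)))).elim

end Vale.Agent.P280Z.Pr
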