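import Vale.Agent.P280Z.Pr.Defs
import Vale.Agent.P280Z.En.Fld

/-!
# P280Z, block Pr: simultaneous lifts of vector fields
-/

open scoped Manifold ContDiff Topology Matrix
open Set Filter
open Vale.Agent.P272.K Vale.Agent.P281Z
open Vale.Agent.P277Z (at_chart)

noncomputable section

namespace Vale.Agent.P280Z.Pr

namespace LiftH

variable {n y m : ℕ} {V : Mf n} {Y : Mf y} {M : Mf m} {π : V.X → Y.X} {μ : V.X → M.X} {x : V.X}
  {e e' : Chart n V.X} {g g' : Chart y Y.X} {k : Chart m M.X} {a : Chart y Y.X → Cm y → Cm y}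
  {w : Cm n}

theorem jm (he : At e x) (he' : At e' x) (v : Cm n) :
    jacM e e' x *ᵥ v = df (fun x => x) e e' x v := by rw [← dfM_id he he', dfM_mulVec]

theorem dfc (hf : HolM n y π) (he : At e x) (he' : At e' x) (hg : At g (π x)) (v : Cm n) :
    df π e' g x (jacM e e' x *ᵥ v) = df π e g x v := by
  rw [jm he he', df_comp (f := fun x => x) (hf.at x) (holM_id.at x) he he' hg]
  rfl

theorem dfg (hf : HolM n y π) (he : At e x) (hg : At g (π x)) (hg' : At g' (π x)) (v : Cm n) :
    df π e g' x v = jacM g g' (π x) *ᵥ df π e g x v := by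
  rw [jm hg hg', df_comp (g := fun x => x) (holM_id.at _) (hf.at x) he hg hg']
  rfl

theorem inj (hπ : HolM n y π) (hμ : HolM n m μ) (hS : Sep π μ) (he : At e x) (hg : At g (π x))
    (hk : At k (μ x)) : Function.Injective ((df π e g x).prod (df μ e k x)) := by
  refine (injective_iff_map_eq_zero _).2 fun v hv => ?_
  have h := hS x (jacM e (chartAt (Cm n) x) x *ᵥ v)
    ((dfc hπ he (at_chart x) (at_chart _) v).trans (by
      rw [dfg hπ he hg (at_chart _), show df π e g x v = 0 from congrArg Prod.fst hv,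
        Matrix.mulVec_zero]))
    ((dfc hμ he (at_chart x) (at_chart _) v).trans (by
      rw [dfg hμ he hk (at_chart _), show df μ e k x v = 0 from congrArg Prod.snd hv,
        Matrix.mulVec_zero]))
  rw [jm he (at_chart x)] at h
  exact tr_inj (at_chart x) he (h.trans (map_zero _).symm)

variable (π a x e w) in
/-- `w` is a lift of the value of `a` -/
def Lf : Prop := df π e (chartAt (Cm y) (π x)) x w = val a (π x)

theorem Lf.any (hf : HolM n y π) (ha : Gp.IsField y a) (he : At e x) (hg : At g (π x))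
    (h : Lf π x e a w) : df π e g x w = a g (g (π x)) := by
  rw [dfg hf he (at_chart _) hg, ha.change _ g _ (at_chart _) hg]
  exact congrArg _ h

theorem Lf.chart (hf : HolM n y π) (he : At e x) (he' : At e' x) (h : Lf π x e a w) :
    Lf π x e' a (jacM e e' x *ᵥ w) := (dfc hf he he' (at_chart _) w).trans h

theorem an_val (hf : HolM n y π) (ha : Gp.IsField y a) (he : At e x) (hg : At g (π x)) :
    AnalyticAt ℂ (fun z => a g (g (π (e.symm z)))) (e x) :=
  AnalyticAt.fun_comp_of_eq (ha.holo g _ hg) ((hf.at x).an he hg) (by rw [he.left_inv])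

end LiftH

open LiftH

/-- **LIFT** -/
theorem lift : LIFT := by
  intro n y m V Y M π μ hπ hμ hS h e x he v
  obtain ⟨a, c, ha, hc, h1, h2, h3⟩ := h x (jacM e (chartAt (Cm n) x) x *ᵥ v)
  let ξ (e : Chart n V.X) (z : Cm n) : Cm n :=
    Classical.epsilon fun w => Lf π (e.symm z) e a w ∧ Lf μ (e.symm z) e c w
  have sp : ∀ x (e : Chart n V.X), At e x → Lf π x e a (ξ e (e x)) ∧ Lf μ x e c (ξ e (e x)) :=
    fun x e he => by
      simp only [ξ, e.left_inv he.2]
      obtain ⟨w, k1, k2⟩ := h3 x
      exact Classical.epsilon_spec (p := fun w => Lf π x e a w ∧ Lf μ x e c w)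
        ⟨_, Lf.chart hπ (at_chart x) he k1.symm, Lf.chart hμ (at_chart x) he k2.symm⟩
  have un : ∀ x (e : Chart n V.X) w, At e x → Lf π x e a w → Lf μ x e c w → ξ e (e x) = w :=
    fun x e w he k1 k2 => inj hπ hμ hS he (at_chart _) (at_chart _)
      (Prod.ext ((sp x e he).1.trans k1.symm) ((sp x e he).2.trans k2.symm))
  refine ⟨ξ, ⟨fun e x he => ?_, fun e e' x he he' => un x e' _ he' ((sp x e he).1.chart hπ he he')
    ((sp x e he).2.chart hμ he he')⟩, un x e v he
      ((dfc hπ he (at_chart x) (at_chart _) v).symm.trans h1.symm)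
      ((dfc hμ he (at_chart x) (at_chart _) v).symm.trans h2.symm)⟩
  have hg := at_chart (n := y) (π x)
  have hk := at_chart (n := m) (μ x)
  refine En.Fld.an_sol (P := fun z =>
    (fderiv ℂ (fun z => chartAt (Cm y) (π x) (π (e.symm z))) z).prod
      (fderiv ℂ (fun z => chartAt (Cm m) (μ x) (μ (e.symm z))) z))
    (((ContinuousLinearMap.prodₗᵢ (𝕜 := ℂ) (E := Cm n) (F := Cm y) (G := Cm m)
      ℂ).toContinuousLinearEquiv.analyticAt _).fun_comp
      (((hπ.at x).an he hg).fderiv.prod ((hμ.at x).an he hk).fderiv))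
    (inj hπ hμ hS he hg hk) ((an_val hπ ha he hg).prod (an_val hμ hc he hk)) ?_
  filter_upwards [at_ev he (at_near he), at_map hπ.cont.continuousAt he hg,
    at_map hμ.cont.continuousAt he hk, he.nhds_target] with z k1 k2 k3 k4
  have k5 := (sp _ e k1).1.any hπ ha k1 k2
  have k6 := (sp _ e k1).2.any hμ hc k1 k3
  rw [df, e.right_inv k4] at k5 k6
  exact Prod.ext k5 k6

end Vale.Agent.P280Z.Pr
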