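import Vale.Agent.P280Z.Pr.Alg

/-!
# P280Z, block Pr: fibres of dimension two (rows G2, CM2, C236, S226)
-/

noncomputable section

namespace Vale.Agent.P280Z.Pr

open Al Qs RdH AlgH

theorem g2 : G2 := by
  intro A B _ _ _ _ S t n y F
  have h := F.ok
  have hn := F.dim
  obtain ⟨o, ho⟩ : ∃ o, Tp S 2 y o := F.top
  obtain ⟨a, ha, q⟩ := s1 F
  obtain ⟨s, hs, e1⟩ := dec h (c := 3) (F.c1.trans (by norm_num))
  obtain ⟨k, hk, e2⟩ := dec h (x := S.es (t 2)) (c := 2 * a) (by simp only [q, tc h, ha]; ring)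
  obtain ⟨g, hg⟩ := kap F ho (F.dt 2)
  have e := red h (9 * (9 * g ^ 2 - 1)) (t 1 ^ 2 * o) (add_mem
    (zv h (h.gx.dg_mul _ _ _ _ (F.dt 3) ho.1.1) (by omega) (-6)) (add_mem
    (zv h (h.gx.dg_mul _ _ _ _ (Elr.dg_pow h.gx (F.dt 1) 3) ho.1.1) (by omega)
      (27 * algebraMap ℝ B g ^ 2 - 1)) (zo hg (27 * s * algebraMap ℝ B g + 9 * a)))) (by
    simp only [map_mul (algebraMap ℝ B), map_sub (algebraMap ℝ B), map_pow (algebraMap ℝ B),
      map_ofNat, map_one, e1, e2, q 3, tc h, ha, hs, hk, ho.1.2]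
    ring)
  have k : ∀ a, Iv S y a → S.GX.int (t 2 * a) = g * S.GX.int (t 1 ^ 2 * a) := fun a ha => by
    obtain ⟨c, rfl⟩ := ho.2.1 a ha
    rw [mul_smul_comm, sub_eq_zero.1 ((sub_mul _ _ _).symm.trans hg), mul_smul_comm,
      smul_mul_assoc, smul_comm, map_smul, smul_eq_mul]
  have e' : (3 * g - 1) * (3 * g + 1) = 0 := by
    linarith [(mul_eq_zero.1 e).resolve_right (vol F ho).ne']
  refine (mul_eq_zero.1 e').imp (fun e a ha => ?_) fun e a ha => ?_ <;> rw [k a ha] <;>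
    linear_combination S.GX.int (t 1 ^ 2 * a) * e

namespace D2H
variable {A B : Type} [CommRing A] [Algebra ℝ A] [CommRing B] [Algebra ℝ B] {S : NS A B}
  {n y : ℕ} {t : ℕ → A}

theorem s12 (F : FA S n 1 2 y t) (P : Pl S y t) : ∃ s ρ k l, S.T s = 0 ∧ S.T ρ = 0 ∧ S.T k = 0 ∧
    S.T l = 0 ∧ S.es (t 1) = 3 * u S + s ∧ S.es (t 2) = 2 * (s + ρ) * u S + k ∧
    S.es (t 3) = (9 * u S ^ 2 + 3 * (s + ρ) ^ 2) * u S + l ∧
    S.T (S.es (t 4)) = 4 * (s + ρ) * (u S ^ 2 + (s + ρ) ^ 2) ∧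
    (∀ v j, S.GX.Dg j v → j = n → ∀ c, c * ρ * S.es v ∈ Z S) ∧
    ∀ a, Iv S y a → (3 * t 2 - t 1 ^ 2) * a = 0 := by
  have h := F.ok
  obtain ⟨o, ho⟩ : ∃ o, Tp S 2 y o := F.top
  obtain ⟨a, ha, q⟩ := s1 F
  obtain ⟨s, hs, e1⟩ := dec h (c := 3) (F.c1.trans (by norm_num))
  obtain ⟨ρ, rfl⟩ : ∃ ρ, a = s + ρ := ⟨a - s, by ring⟩
  rw [map_add, hs, zero_add] at ha
  obtain ⟨k, hk, e2⟩ := dec h (x := S.es (t 2)) (c := 2 * (s + ρ))
    (by simp only [q, tc h, ha, hs]; ring)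
  obtain ⟨l, hl, e3⟩ := dec h (x := S.es (t 3)) (c := 9 * u S ^ 2 + 3 * (s + ρ) ^ 2)
    (by simp only [q, tc h, ha, hs]; ring)
  have hκ : ∀ a, Iv S y a → (3 * t 2 - t 1 ^ 2) * a = 0 := fun a ha =>
    z0 h (h.gx.dg_mul 2 y _ _ (by
      rw [GA.Dg, map_sub, ← map_ofNat (algebraMap ℝ A), ← Algebra.smul_def, map_smul, F.dt,
        Elr.dg_pow h.gx (F.dt 1) 2]) ha.1) (by rw [F.dim, add_comm])
      (by rw [sub_mul, map_sub, mul_assoc, In, P a ha, sub_self])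
  have e := two h (x := S.es (3 * t 2 - t 1 ^ 2)) (by rw [← map_mul, hκ o ho.1, map_zero]) ho.1
  simp only [e1, e2, tc h, ha, hs, hk] at e
  exact ⟨s, ρ, k, l, hs, ha, hk, hl, e1, e2, e3, by simp only [q, tc h, ha, hs]; ring,
    fun v j hv hj => k0 F ho (can 6 (by linear_combination e)) hv hj, hκ⟩

theorem s6 (F : FA S 6 1 2 4 t) (P : Pl S 4 t) {x g : A} (hx : Un S x) (hg : g = 3 * x - t 1) :
    ∃ σ ρ k l, S.T σ = 0 ∧ S.T ρ = 0 ∧ S.T k = 0 ∧ S.T l = 0 ∧ S.T (S.es g) = 0 ∧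
    S.es x = u S + σ ∧ S.es (t 1) = 3 * u S + (3 * σ - S.es g) ∧
    S.es (t 2) = 2 * (3 * σ - S.es g + ρ) * u S + k ∧
    S.es (t 3) = (9 * u S ^ 2 + 3 * (3 * σ - S.es g + ρ) ^ 2) * u S + l ∧
    S.T (S.es (t 4)) = 4 * (3 * σ - S.es g + ρ) * (u S ^ 2 + (3 * σ - S.es g + ρ) ^ 2) ∧
    (∀ i j l, 2 * i + j + l = 6 → ∀ c, c * ρ * S.es (t 2 ^ i * g ^ j * x ^ l) ∈ Z S) ∧
    (∀ i j l, 2 * i + j + l = 7 → ∀ c, c * S.es (t 2 ^ i * g ^ j * x ^ l) ∈ Z S) ∧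
    g ^ 5 = 0 ∧ (3 * t 2 - t 1 ^ 2) * g ^ 4 = 0 := by
  have h := F.ok
  obtain ⟨s, ρ, k, l, hs, hρ, hk, hl, e1, e2, e3, e4, d6, hκ⟩ := s12 F P
  obtain ⟨σ, hσ, ex⟩ := dec h hx.2
  have ig : Iv S 1 g := ⟨by
    rw [hg, GA.Dg, map_sub, ← map_ofNat (algebraMap ℝ A), ← Algebra.smul_def, map_smul, F.dt, hx.1],
    by simp only [hg, tc h, hx.2, e1, hs]; ring⟩
  obtain rfl : s = 3 * σ - S.es g := by
    simp only [hg, tc h, ex, e1]; ring
  have i2 := iv_mul h ig ig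
  have i4 := iv_mul h i2 i2
  have dm : ∀ i j l, S.GX.Dg (2 * i + j + l) (t 2 ^ i * g ^ j * x ^ l) := fun i j l =>
    h.gx.dg_mul _ _ _ _ (h.gx.dg_mul _ _ _ _ (by
      induction i with
      | zero => rw [pow_zero]; exact h.gx.dg_one
      | succ i ih => rw [pow_succ]; exact h.gx.dg_mul _ _ _ _ ih (F.dt 2))
      (Elr.dg_pow h.gx ig.1 j)) (Elr.dg_pow h.gx hx.1 l)
  exact ⟨σ, ρ, k, l, hσ, hρ, hk, hl, ig.2, by rw [ex, one_mul], e1, e2, e3, e4,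
    fun i j l e => d6 _ _ (dm i j l) e, fun i j l e => zv h (dm i j l) (by omega),
    by linear_combination ko F ig i4, by linear_combination hκ _ i4⟩

end D2H

open D2H

theorem cm2 : CM2 := by
  intro A B _ _ _ _ S t n y F P j z hj hz
  have h := F.ok
  have hn := F.dim
  have m := h.gx.dg_mul
  obtain ⟨s, ρ, k, l, hs, hρ, hk, hl, e1, e2, e3, -, d, -⟩ := s12 F P
  refine redN h 24 (add_mem (zo (nw2 F).1 (12 * s * S.es z)) (add_mem
    (zv h (m _ _ _ _ (Elr.dg_pow h.gx (F.dt 1) 4) hz.1) (by omega) 11) (add_mem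
    (zv h (m _ _ _ _ (m _ _ _ _ (F.dt 2) (F.dt 2)) hz.1) (by omega) (-27))
    (d _ _ (m _ _ _ _ (m _ _ _ _ (F.dt 2) (F.dt 1)) hz.1) (by omega) 36)))) ?_
  simp only [e1, e2, e3, tc h, hs, hρ, hk, hl, hz.2]
  ring

theorem c236 : C236 := by
  intro A B _ _ _ _ S t F P x hu hx
  have h := F.ok
  obtain ⟨r3, r4⟩ := nw2 F
  obtain ⟨g, hg⟩ : ∃ g, g = 3 * x - t 1 := ⟨_, rfl⟩
  obtain ⟨σ, ρ, k, l, hσ, hρ, hk', hl, ig, ex, e1, e2, e3, e4, d6, d7, h5, hk⟩ := s6 F P hu hg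
  rw [← hg]
  refine redN h 531360 (add_mem (zo r3
      (59040 * u S ^ 4 + 331976 * u S ^ 2 * σ * S.es g - 55404 * u S ^ 2 * S.es g ^ 2 -
        16584 * u S ^ 2 * S.es g * ρ - 8292 * u S ^ 2 * ρ ^ 2 + 11808 * u S ^ 2 * k -
        743256 * σ ^ 4 + 265880 * σ ^ 3 * S.es g + 193248 * σ ^ 3 * ρ -
        174204 * σ ^ 2 * S.es g ^ 2 - 38232 * σ ^ 2 * S.es g * ρ + 54972 * σ ^ 2 * ρ ^ 2 -
        20088 * σ ^ 2 * k + 64872 * σ * S.es g ^ 3 - 105840 * σ * S.es g ^ 2 * ρ +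
        58824 * σ * S.es g * ρ ^ 2 - 4320 * σ * S.es g * k - 10512 * σ * ρ * k -
        97710 * S.es g ^ 4 + 34872 * S.es g ^ 3 * ρ - 29388 * S.es g ^ 2 * ρ ^ 2 +
        8928 * S.es g * ρ ^ 3 + 2496 * S.es g * ρ * k - 372 * ρ ^ 4 - 552 * ρ ^ 2 * k -
        738 * k ^ 2 + (2292936 * u S ^ 2 * σ + 2292936 * σ ^ 3) * u S))
    (add_mem (zo r4
      (-72522 * u S ^ 2 * σ - 40500 * u S ^ 2 * S.es g + 9288 * u S ^ 2 * ρ + 12042 * σ ^ 3 -
        28674 * σ ^ 2 * ρ + 29646 * σ * S.es g ^ 2 - 12312 * σ * S.es g * ρ - 1674 * σ * ρ ^ 2 +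
        8748 * σ * k - 12204 * S.es g ^ 3 + 10044 * S.es g ^ 2 * ρ - 6138 * S.es g * ρ ^ 2 +
        4536 * S.es g * k + 279 * ρ ^ 3 + 135 * ρ * k))
    (add_mem (zo hx
      (7864776 * u S ^ 2 * σ - 2678040 * u S ^ 2 * S.es g - 8170632 * u S ^ 2 * ρ -
        2006208 * σ ^ 2 * ρ - 154116 * σ * S.es g ^ 2 + 434736 * σ * S.es g * ρ -
        456192 * σ * ρ ^ 2 - 2674836 * σ * k - 1624380 * S.es g ^ 3 + 1014576 * S.es g ^ 2 * ρ +
        19200 * S.es g * ρ ^ 2 + 544644 * S.es g * k + 141696 * ρ * k + 1146468 * l +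
        (2656800 * u S ^ 2 + 6907680 * σ ^ 2 - 5439312 * σ * S.es g + 79704 * σ * ρ +
        1836108 * S.es g ^ 2 - 1825416 * S.es g * ρ + 278964 * ρ ^ 2) * u S))
    (add_mem (zo h5
      ((2261520 * σ - 456300 * S.es g + 495324 * ρ) * u S))
    (add_mem (zo hk
      (-235566 * σ - 78000 * ρ + 227826 * u S))
    (add_mem (d7 1 2 3 rfl
      (-199908))
    (add_mem (d7 1 3 2 rfl
      (431244))
    (add_mem (d7 2 0 3 rfl
      (-139482))
    (add_mem (d7 2 1 2 rfl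
      (71442))
    (add_mem (d7 2 2 1 rfl
      (31914))
    (add_mem (d7 2 3 0 rfl
      (17982))
    (add_mem (d7 3 0 1 rfl
      (6642))
    (add_mem (d7 3 1 0 rfl
      (-5670))
    (add_mem (d6 0 3 3 rfl
      (-665280))
    (add_mem (d6 1 1 3 rfl
      (237168))
    (add_mem (d6 1 2 2 rfl
      (-263088))
    (d6 1 3 1 rfl
      (-65232)))))))))))))))))) ?_
  simp only [ex, e1, e2, e3, e4, tc h, hσ, hρ, hk', hl, ig]
  ring

theorem s226 : S226 := by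
  intro A B _ _ _ _ S t F P x g hu hx hg
  have h := F.ok
  obtain ⟨r3, r4⟩ := nw2 F
  obtain ⟨σ, ρ, k, l, hσ, hρ, hk', hl, ig, ex, e1, e2, e3, e4, d6, d7, h5, hk⟩ := s6 F P hu hg
  have a0 : S.GX.int (t 3 * (x ^ 2 * (x - g)) - 12 * (x ^ 4 * g ^ 2) + 3 * (x ^ 3 * g ^ 3)) = 0 := by
    refine redN h 10771200 (add_mem (zo r3
        (-8575600 * u S ^ 4 - 83506000 * u S ^ 2 * σ ^ 2 + 18238200 * u S ^ 2 * σ * S.es g -
          9845460 * u S ^ 2 * σ * ρ + 688600 * u S ^ 2 * S.es g ^ 2 +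
          4850780 * u S ^ 2 * S.es g * ρ + 710088 * u S ^ 2 * ρ ^ 2 + 633600 * u S ^ 2 * k -
          1625120 * σ ^ 4 - 20323080 * σ ^ 3 * S.es g + 8912028 * σ ^ 3 * ρ +
          4277880 * σ ^ 2 * S.es g ^ 2 + 5778372 * σ ^ 2 * S.es g * ρ - 3005520 * σ ^ 2 * k +
          1235080 * σ * S.es g ^ 3 - 5925324 * σ * S.es g ^ 2 * ρ +
          2214960 * σ * S.es g * ρ ^ 2 + 3380040 * σ * S.es g * k - 1839192 * σ * ρ ^ 3 +
          956148 * σ * ρ * k - 1391520 * S.es g ^ 4 + 261836 * S.es g ^ 3 * ρ +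
          261800 * S.es g ^ 2 * k + 562004 * S.es g * ρ ^ 3 - 897436 * S.es g * ρ * k -
          244368 * ρ ^ 4 + 240984 * ρ ^ 2 * k + 118800 * k ^ 2 + (-16156800 * u S ^ 2 * σ +
          5385600 * u S ^ 2 * S.es g - 5385600 * σ ^ 3 + 5385600 * σ ^ 2 * S.es g) * u S))
      (add_mem (zo r4
        (3528225 * u S ^ 2 * σ - 316800 * u S ^ 2 * S.es g + 1483470 * u S ^ 2 * ρ -
          3992715 * σ ^ 3 + 4665510 * σ ^ 2 * S.es g - 28944 * σ ^ 2 * ρ +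
          869805 * σ * S.es g ^ 2 - 1871694 * σ * S.es g * ρ + 279738 * σ * ρ ^ 2 +
          1187235 * σ * k - 104580 * S.es g ^ 3 + 73374 * S.es g ^ 2 * ρ -
          54951 * S.es g * ρ ^ 2 + 183276 * ρ ^ 3 - 364014 * ρ * k))
      (add_mem (zo hx
        (-288961200 * u S ^ 2 - 393822000 * σ ^ 2 + 494257500 * σ * S.es g -
          191367000 * S.es g ^ 2 - 6784500 * S.es g * ρ + 1531200 * ρ ^ 2 + 105692400 * k +
          (-32788800 * σ + 81071100 * S.es g + 47916000 * ρ) * u S))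
      (add_mem (zo h5
        ((19278600 * σ - 4516600 * S.es g) * u S))
      (add_mem (zo hk
        (-8148120 * σ + 1240010 * S.es g - 843920 * ρ + 6333800 * u S))
      (add_mem (d7 0 3 4 rfl
        (11790900))
      (add_mem (d7 1 1 4 rfl
        (-13266000))
      (add_mem (d7 1 2 3 rfl
        (-29700000))
      (add_mem (d7 1 3 2 rfl
        (-3247200))
      (add_mem (d7 2 0 3 rfl
        (-356400))
      (add_mem (d7 2 1 2 rfl
        (-16226100))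
      (add_mem (d7 2 2 1 rfl
        (1445400))
      (add_mem (d7 2 3 0 rfl
        (1448700))
      (add_mem (d7 3 0 1 rfl
        (-1069200))
      (add_mem (d7 3 1 0 rfl
        (455400))
      (add_mem (d6 0 2 4 rfl
        (-22166820))
      (add_mem (d6 0 3 3 rfl
        (46832760))
      (add_mem (d6 1 0 4 rfl
        (-14414400))
      (add_mem (d6 1 1 3 rfl
        (30868200))
      (add_mem (d6 1 2 2 rfl
        (8319960))
      (add_mem (d6 1 3 1 rfl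
        (-9711240))
      (add_mem (d6 2 0 2 rfl
        (6336000))
      (add_mem (d6 2 1 1 rfl
        (-1192500))
      (d6 2 2 0 rfl
        (167820))))))))))))))))))))))))) ?_
    simp only [ex, e1, e2, e3, e4, tc h, hσ, hρ, hk', hl, ig]
    ring
  have a1 : S.GX.int (t 3 * (x * g ^ 2) - 9 * (x ^ 4 * g ^ 2) + 6 * (x ^ 3 * g ^ 3)) = 0 := by
    refine redN h 2880 (add_mem (zo r3
        (-900 * u S ^ 2 * S.es g ^ 2 - 4644 * σ ^ 2 * S.es g ^ 2 + 1656 * σ * S.es g ^ 3 -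
          720 * σ * S.es g ^ 2 * ρ - 136 * S.es g ^ 4 + 120 * S.es g ^ 3 * ρ +
          36 * S.es g ^ 2 * ρ ^ 2 + 60 * S.es g ^ 2 * k - 1440 * σ * S.es g ^ 2 * u S))
      (add_mem (zo r4
        (702 * σ * S.es g ^ 2 - 144 * S.es g ^ 3 - 27 * S.es g ^ 2 * ρ))
      (add_mem (zo hx
        (-40500 * S.es g ^ 2))
      (add_mem (zo h5
        ((-14400 * σ + 2100 * S.es g - 552 * ρ) * u S))
      (add_mem (zo hk
        (-1236 * σ + 284 * ρ + 1020 * u S))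
      (add_mem (d7 0 3 4 rfl
        (37260))
      (add_mem (d7 1 2 3 rfl
        (10800))
      (add_mem (d7 1 3 2 rfl
        (-8640))
      (add_mem (d7 2 2 1 rfl
        (-540))
      (add_mem (d7 2 3 0 rfl
        (900))
      (add_mem (d6 0 2 4 rfl
        (-18036))
      (add_mem (d6 0 3 3 rfl
        (20448))
      (add_mem (d6 1 2 2 rfl
        (3888))
      (add_mem (d6 1 3 1 rfl
        (-4752))
      (d6 2 2 0 rfl
        (36)))))))))))))))) ?_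
    simp only [ex, e1, e2, e3, e4, tc h, hσ, hρ, hk', hl, ig]
    ring
  have a2 : S.GX.int (t 3 * g ^ 3) = 0 := by
    refine redN h 96 (add_mem (zo r3
        (-48 * σ * S.es g ^ 3 - 8 * S.es g ^ 4 - 12 * S.es g ^ 3 * ρ - 48 * S.es g ^ 3 * u S))
      (add_mem (zo r4
        (9 * S.es g ^ 3))
      (add_mem (zo h5
        ((720 * σ - 144 * S.es g + 120 * ρ) * u S))
      (add_mem (zo hk
        (-24 * σ - 32 * ρ + 24 * u S))
      (add_mem (d7 0 3 4 rfl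
        (-648))
      (add_mem (d7 1 3 2 rfl
        (216))
      (add_mem (d6 0 3 3 rfl
        (-360))
      (d6 1 3 1 rfl
        (72))))))))) ?_
    simp only [ex, e1, e2, e3, e4, tc h, hσ, hρ, hk', hl, ig]
    ring
  rw [map_add, map_sub, In, In] at a0 a1
  exact ⟨by linarith, by linarith, a2⟩

end Vale.Agent.P280Z.Pr
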