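import Vale.Agent.P280Z.Pr.Alg

/-!
# P280Z, block Pr: fibres of dimension three (rows CM3, CMQ)
-/

noncomputable section

namespace Vale.Agent.P280Z.Pr

open Al Al.Cn Qs RdH AlgH

namespace D3H
variable {A B : Type} [CommRing A] [Algebra ℝ A] [CommRing B] [Algebra ℝ B] {S : NS A B}
  {n r y j : ℕ} {t : ℕ → A} {o z : A}

theorem nw3 (F : FA S n r 3 y t) :
    t 1 ^ 4 - 6 * t 1 ^ 2 * t 2 + 3 * t 2 ^ 2 + 8 * t 1 * t 3 - 6 * t 4 = 0 ∧
    t 1 ^ 5 - 5 * t 1 ^ 3 * t 2 + 5 * t 1 ^ 2 * t 3 + 5 * t 2 * t 3 - 6 * t 5 = 0 ∧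
    t 1 ^ 6 - 3 * t 1 ^ 4 * t 2 - 9 * t 1 ^ 2 * t 2 ^ 2 + 3 * t 2 ^ 3 + 4 * t 1 ^ 3 * t 3 +
      12 * t 1 * t 2 * t 3 + 4 * t 3 ^ 2 - 12 * t 6 = 0 := by
  obtain ⟨a2, a3, a⟩ := nw (s := t) (F.rank _ (ne_spec t))
  have a4 := a 0
  have a5 := a 1
  have a6 := a 2
  simp only [Nat.reduceAdd] at a4 a5 a6
  generalize ne t 2 = e at *
  generalize ne t 3 = f at *
  rw [a6, a5, a4, a3, a2]
  exact ⟨by ring, by ring, by ring⟩

theorem tw (h : S.OK0 n r) {m : A} (e : m * o = 0) (ho : Iv S y o) :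
    S.T (S.es m) * S.es o = 0 := two h (by rw [← map_mul, e, map_zero]) ho

theorem rows (F : FA S n r 3 y t) (ho : Tp S 3 y o) (hz : Iv S j z) (hj : j + 1 = y) {g G : ℝ}
    (hg : (t 2 - g • t 1 ^ 2) * o = 0) (hG : (t 3 - G • t 1 ^ 3) * o = 0) :
    (∀ c, c * S.es ((t 1 ^ 4 - 6 * t 1 ^ 2 * t 2 + 3 * t 2 ^ 2 + 8 * t 1 * t 3 - 6 * t 4) * z) ∈
      Z S) ∧
    (∀ c, c * S.es ((t 1 ^ 5 - 5 * t 1 ^ 3 * t 2 + 5 * t 1 ^ 2 * t 3 + 5 * t 2 * t 3 - 6 * t 5) *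
      z) ∈ Z S) ∧
    (∀ c, c * S.es ((t 1 ^ 6 - 3 * t 1 ^ 4 * t 2 - 9 * t 1 ^ 2 * t 2 ^ 2 + 3 * t 2 ^ 3 +
      4 * t 1 ^ 3 * t 3 + 12 * t 1 * t 2 * t 3 + 4 * t 3 ^ 2 - 12 * t 6) * z) ∈ Z S) ∧
    (∀ i k l, 4 < 2 * i + 3 * k + l → ∀ c, c * S.es (t 2 ^ i * t 3 ^ k * t 1 ^ l * z) ∈ Z S) ∧
    (∀ {b}, b * S.es o = 0 → ∀ i k l, 2 * i + 3 * k + l = 4 → ∀ c,
      c * b * S.es (t 2 ^ i * t 3 ^ k * t 1 ^ l * z) ∈ Z S) ∧
    (∀ {b}, b * S.es o = 0 → ∀ c, c * b * S.es ((t 2 - g • t 1 ^ 2) * t 1 * z) ∈ Z S) ∧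
    ∀ {b}, b * S.es o = 0 → ∀ c, c * b * S.es ((t 3 - G • t 1 ^ 3) * z) ∈ Z S := by
  have h := F.ok
  have hn := F.dim
  have m := h.gx.dg_mul
  obtain ⟨r4, r5, r6⟩ := nw3 F
  have dp : ∀ k i, S.GX.Dg (k * i) (t k ^ i) := fun k i => by
    induction i with
    | zero => rw [pow_zero]; exact h.gx.dg_one
    | succ i ih => rw [pow_succ]; exact m _ _ _ _ ih (F.dt k)
  have dm := fun i k l => m _ _ _ _ (m _ _ _ _ (m _ _ _ _ (dp 2 i) (dp 3 k)) (dp 1 l)) hz.1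
  exact ⟨zo (by rw [r4, zero_mul]), zo (by rw [r5, zero_mul]), zo (by rw [r6, zero_mul]),
    fun i k l e => zv h (dm i k l) (by omega), fun hb i k l e => k0 F ho hb (dm i k l) (by omega),
    fun hb => k1 F ho hb (m 2 1 _ _ (dg_sub (F.dt 2) (dp 1 2) g) (F.dt 1))
      (by linear_combination t 1 * hg) hz hj,
    fun hb => k1 F ho hb (dg_sub (F.dt 3) (dp 1 3) G) hG hz hj⟩

end D3H

open D3H

theorem cm3 : CM3 := by
  intro A B _ _ _ _ S t n y F j z hj hz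
  have h := F.ok
  have hn := F.dim
  obtain ⟨o, ho⟩ : ∃ o, Tp S 3 y o := F.top
  obtain ⟨a, f, ha, hf, q⟩ := s2 F
  obtain ⟨s, hs, e1⟩ := dec h (c := 4) (F.c1.trans (by norm_num))
  obtain ⟨k, hk, e2⟩ := dec h (x := S.es (t 2)) (c := 2 * a)
    (by simp only [q, pw, tc h, ha, hf]; ring)
  obtain ⟨l, hl, e3⟩ := dec h (x := S.es (t 3)) (c := 10 * u S ^ 2 + 3 * a ^ 2 - 6 * f)
    (by simp only [q, pw, tc h, ha, hf]; ring)
  obtain ⟨g, hg⟩ := kap1 F ho (F.dt 2)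
  obtain ⟨G, hG⟩ := kap F ho (F.dt 3)
  have m := fun i => h.gx.dg_mul _ _ _ _ (F.dt i) ho.1.1
  have m4 := h.gx.dg_mul _ _ _ _ (Elr.dg_pow h.gx (F.dt 1) 4) ho.1.1
  obtain ⟨γ, hγ⟩ : ∃ γ, algebraMap ℝ B g = γ := ⟨_, rfl⟩
  obtain ⟨Γ, hΓ⟩ : ∃ Γ, algebraMap ℝ B G = Γ := ⟨_, rfl⟩
  have Tγ : S.T γ = 0 := hγ ▸ Ta h g
  have TΓ : S.T Γ = 0 := hΓ ▸ Ta h G
  have E1 := red h (64 * (g * (16 * G + 1 -
    32 * g ^ 2))) (t 1 ^ 3 * o) (add_mem (zv h (m 4) (by omega)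
      (8 * s))
    (add_mem (zv h m4 (by omega)
      (96 * s * γ ^ 3 - 16 * s * γ * Γ - s * γ - 12 * a * Γ + (-512 * γ ^ 3 + 256 * γ * Γ +
        16 * γ) * u S))
    (add_mem (zo hg
      (1024 * u S ^ 2 * s * Γ + 64 * u S ^ 2 * s + 128 * s ^ 3 * γ ^ 2 + 32 * s ^ 2 * a * γ +
        8 * s * a ^ 2))
    (zo hG
      (-16 * s * a))))) (by
    simp only [map_mul (algebraMap ℝ B), map_sub (algebraMap ℝ B), map_add (algebraMap ℝ B),
      map_pow (algebraMap ℝ B), map_ofNat, map_one, e1, e2, e3, q 4, q 5, pw, tc h, ha, hf, hs, hk, hl, ho.1.2,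
      hγ, hΓ, Tγ, TΓ]
    ring)
  have E2 := red h (32 * (3200 * G ^ 2 - 100 * G + 50 - 57600 * g ^ 4 + 300 * g ^ 2 * (64 * G +
    5))) (t 1 ^ 3 * o) (add_mem (zv h (m 5) (by omega)
      (1440))
    (add_mem (zv h m4 (by omega)
      (86400 * s * γ ^ 4 - 28800 * s * γ ^ 2 * Γ - 750 * s * γ ^ 2 - 4800 * s * Γ ^ 2 - 15 * s -
        2400 * a * γ * Γ + (-460800 * γ ^ 4 + 153600 * γ ^ 2 * Γ + 12000 * γ ^ 2 +
        19200 * Γ ^ 2 + 240) * u S))
    (add_mem (zo hg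
      (48000 * u S ^ 2 * s * γ + 115200 * s ^ 3 * γ ^ 3 - 38400 * s ^ 3 * γ * Γ +
        28800 * s ^ 2 * a * γ ^ 2 + 7200 * s * a ^ 2 * γ - 1800 * a ^ 3 + 7200 * a * f))
    (zo hG
      (-25600 * u S ^ 2 * Γ - 800 * u S ^ 2 - 4800 * s ^ 2 * Γ - 9600 * s * a * γ -
        1200 * a ^ 2 + 2400 * f))))) (by
    simp only [map_mul (algebraMap ℝ B), map_sub (algebraMap ℝ B), map_add (algebraMap ℝ B),
      map_pow (algebraMap ℝ B), map_ofNat, map_one, e1, e2, e3, q 4, q 5, pw, tc h, ha, hf, hs, hk, hl, ho.1.2,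
      hγ, hΓ, Tγ, TΓ]
    ring)
  replace E1 := (mul_eq_zero.1 E1).resolve_right (vol F ho).ne'
  replace E2 := (mul_eq_zero.1 E2).resolve_right (vol F ho).ne'
  obtain ⟨r4, r5, r6, dh, d4, d2, d3⟩ := rows F ho hz hj hg hG
  have b2 := tw h hg ho.1
  have b3 := tw h hG ho.1
  clear hγ hΓ
  have g0 : g ≠ 0 := by
    rintro rfl
    nlinarith [sq_nonneg (64 * G - 1)]
  obtain rfl : G = 2 * g ^ 2 - 1 / 16 := by
    linarith [(mul_eq_zero.1 ((mul_eq_zero.1 E1).resolve_left (by norm_num))).resolve_left g0]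
  have e : (g - 1 / 4) * (g - -1 / 4) = 0 :=
    (mul_eq_zero.1 (show _ * (6400 * g ^ 2 + 1100) = 0 by linear_combination -1 / 32 * E2)).resolve_right
      (by positivity)
  rcases mul_eq_zero.1 e with e | e <;> obtain rfl := sub_eq_zero.1 e
  · refine redN h 288 (add_mem (r4
        (-256 * u S ^ 2 + 16 * s ^ 2 + 96 * k))
      (add_mem (dh 0 0 5 (by norm_num)
        (-16 * s + 36 * a + 136 * u S))
      (add_mem (dh 1 0 3 (by norm_num)
        (36 * s - 432 * a - 624 * u S))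
      (add_mem (dh 2 0 1 (by norm_num)
        (1320 * s + 2208 * u S))
      (add_mem (dh 0 1 2 (by norm_num)
        (-128 * s + 192 * a + 512 * u S))
      (add_mem (dh 1 1 0 (by norm_num)
        (-768 * s - 3072 * u S))
      (add_mem (dh 3 0 0 (by norm_num) (-672))
      (add_mem (d4 b2 0 0 4 rfl
        (21 * a + 36 * u S))
      (add_mem (d4 b2 1 0 2 rfl
        (-48 * a + 288 * u S))
      (add_mem (d4 b2 2 0 0 rfl
        (-48 * s - 144 * a + 1440 * u S))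
      (d4 b3 2 0 0 rfl (288)))))))))))) ?_
    simp only [e1, e2, e3, q 4, q 5, q 6, pw, td4, tc h, ha, hf, hs, hk, hl, hz.2]
    algebra
  · refine redN h 36000 (add_mem (r4
        (-4160 * u S ^ 2 - 280 * s ^ 2 + 2880 * s * a - 6720 * k + 2880 * f))
      (add_mem (r5
        (-2304 * s - 2304 * a))
      (add_mem (r6
        (960))
      (add_mem (dh 0 0 5 (by norm_num)
        (2005 * s + 1575 * a + 5060 * u S))
      (add_mem (dh 1 0 3 (by norm_num)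
        (-6840 * s + 32880 * u S))
      (add_mem (dh 2 0 1 (by norm_num)
        (-21120 * s - 96960 * u S))
      (add_mem (dh 0 1 2 (by norm_num)
        (8960 * s - 14160 * a - 16640 * u S))
      (add_mem (dh 1 1 0 (by norm_num)
        (56640 * s - 11520 * a + 168960 * u S))
      (add_mem (dh 3 0 0 (by norm_num) (22560))
      (add_mem (dh 0 2 0 (by norm_num) (3840))
      (add_mem (d4 b2 0 0 4 rfl
        (-1005 * a - 5580 * u S))
      (add_mem (d4 b3 0 0 4 rfl (540))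
      (add_mem (d4 b2 1 0 2 rfl
        (5160 * a + 15840 * u S))
      (add_mem (d4 b3 1 0 2 rfl (-3240))
      (add_mem (d4 b2 2 0 0 rfl
        (-13920 * s + 7920 * a - 36000 * u S))
      (d4 b3 2 0 0 rfl (-12960))))))))))))))))) ?_
    simp only [e1, e2, e3, q 4, q 5, q 6, pw, td4, tc h, ha, hf, hs, hk, hl, hz.2]
    algebra

theorem cmq : CMQ := by
  intro A B _ _ _ _ S t n y F j z hj hz td
  have h := F.ok
  have hn := F.dim
  obtain ⟨o, ho⟩ : ∃ o, Tp S 3 y o := F.top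
  obtain ⟨a, ha, q⟩ := s1 F
  obtain ⟨s, hs, e1⟩ := dec h (c := 3) (F.c1.trans (by norm_num))
  obtain ⟨k, hk, e2⟩ := dec h (x := S.es (t 2)) (c := 2 * a) (by simp only [q, tc h, ha]; ring)
  obtain ⟨l, hl, e3⟩ := dec h (x := S.es (t 3)) (c := 9 * u S ^ 2 + 3 * a ^ 2)
    (by simp only [q, tc h, ha]; ring)
  obtain ⟨g, hg⟩ := kap1 F ho (F.dt 2)
  obtain ⟨G, hG⟩ := kap F ho (F.dt 3)
  have m := fun i => h.gx.dg_mul _ _ _ _ (F.dt i) ho.1.1
  have m4 := h.gx.dg_mul _ _ _ _ (Elr.dg_pow h.gx (F.dt 1) 4) ho.1.1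
  obtain ⟨γ, hγ⟩ : ∃ γ, algebraMap ℝ B g = γ := ⟨_, rfl⟩
  obtain ⟨Γ, hΓ⟩ : ∃ Γ, algebraMap ℝ B G = Γ := ⟨_, rfl⟩
  have Tγ : S.T γ = 0 := hγ ▸ Ta h g
  have TΓ : S.T Γ = 0 := hΓ ▸ Ta h G
  have E1 := red h (12 * (g * (81 * g ^ 2 - 1))) (t 1 ^ 3 * o) (add_mem (zv h (m 4) (by omega)
      (-18))
    (add_mem (zv h m4 (by omega)
      (243 * γ ^ 3 - γ))
    (zo hg
      (36 * u S ^ 2 + 324 * s ^ 2 * γ ^ 2 + 108 * s * a * γ + 36 * a ^ 2)))) (by
    simp only [map_mul (algebraMap ℝ B), map_sub (algebraMap ℝ B), map_add (algebraMap ℝ B),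
      map_pow (algebraMap ℝ B), map_ofNat, map_one, e1, e2, e3, q 4, q 5, pw, tc h, ha, hs, hk, hl, ho.1.2,
      hγ, hΓ, Tγ, TΓ]
    ring)
  have E2 := red h (12 * (6 * G - 27 * g ^ 2 + 1)) (t 1 ^ 3 * o) (add_mem (zv h m4 (by omega)
      (-81 * γ ^ 2 + 24 * Γ + 1))
    (add_mem (zo hg
      (-108 * s ^ 2 * γ - 36 * s * a))
    (zo hG
      (24 * s)))) (by
    simp only [map_mul (algebraMap ℝ B), map_sub (algebraMap ℝ B), map_add (algebraMap ℝ B),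
      map_pow (algebraMap ℝ B), map_ofNat, map_one, e1, e2, e3, q 4, q 5, pw, tc h, ha, hs, hk, hl, ho.1.2,
      hγ, hΓ, Tγ, TΓ]
    ring)
  replace E1 := (mul_eq_zero.1 E1).resolve_right (vol F ho).ne'
  replace E2 := (mul_eq_zero.1 E2).resolve_right (vol F ho).ne'
  obtain ⟨r4, r5, r6, dh, d4, d2, d3⟩ := rows F ho hz hj hg hG
  have b2 := tw h hg ho.1
  have b3 := tw h hG ho.1
  clear hγ hΓ
  obtain rfl : G = (27 * g ^ 2 - 1) / 6 := by linarith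
  have e : (g - 1 / 9) * ((g - 0) * (g - -1 / 9)) = 0 := by linear_combination 1 / 972 * E1
  rcases mul_eq_zero.1 e with e | e
  on_goal 2 => rcases mul_eq_zero.1 e with e | e
  all_goals obtain rfl := sub_eq_zero.1 e
  · refine redN h 6960 (add_mem (r4
        (810 * s + 6480 * a + 270 * u S))
      (add_mem (r5
        (-5184))
      (add_mem (zi h td 810)
      (add_mem (dh 0 0 5 (by norm_num) (2240))
      (add_mem (dh 1 0 3 (by norm_num) (-10620))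
      (add_mem (dh 2 0 1 (by norm_num) (-1620))
      (add_mem (dh 0 1 2 (by norm_num) (14580))
      (add_mem (dh 1 1 0 (by norm_num) (17820))
      (add_mem (d4 b2 0 0 4 rfl (-1470))
      (add_mem (d4 b2 2 0 0 rfl (-7290))
      (add_mem (d4 b2 0 1 1 rfl (-23220))
      (add_mem (d2 b2
        (13635 * s + 5265 * a + 69660 * u S))
      (d2 b3
        (-2970)))))))))))))) ?_
    simp only [e1, e2, e3, q 4, q 5, q 6, pw, td4, tc h, ha, hs, hk, hl, hz.2]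
    algebra
  · refine redN h 133320 (add_mem (r4
        (23760 * s + 54135 * a + 3960 * u S))
      (add_mem (r5
        (-44064))
      (add_mem (zi h td 11880)
      (add_mem (dh 0 0 5 (by norm_num) (21800))
      (add_mem (dh 1 0 3 (by norm_num) (-83040))
      (add_mem (dh 2 0 1 (by norm_num) (-23760))
      (add_mem (dh 0 1 2 (by norm_num) (120000))
      (add_mem (dh 1 1 0 (by norm_num) (188640))
      (add_mem (d4 b2 0 0 4 rfl (-10560))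
      (add_mem (d2 b2
        (97920 * s - 92430 * a + 585630 * u S))
      (d3 b2
        (-59880 * s - 3780 * a - 617940 * u S)))))))))))) ?_
    simp only [e1, e2, e3, q 4, q 5, q 6, pw, td4, tc h, ha, hs, hk, hl, hz.2]
    algebra
  · refine redN h 67200 (add_mem (r4
        (7785 * s + 9315 * a + 1620 * u S))
      (add_mem (r5
        (-7452))
      (add_mem (zi h td 4860)
      (add_mem (dh 0 0 5 (by norm_num) (1000))
      (add_mem (dh 1 0 3 (by norm_num) (-16560))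
      (add_mem (dh 2 0 1 (by norm_num) (-9720))
      (add_mem (dh 0 1 2 (by norm_num) (8040))
      (add_mem (dh 1 1 0 (by norm_num) (-37800))
      (add_mem (d4 b2 0 0 4 rfl (-8730))
      (add_mem (d4 b2 2 0 0 rfl (7290))
      (add_mem (d4 b2 0 1 1 rfl (-12240))
      (add_mem (d2 b2
        (22680 * s - 54000 * a + 116640 * u S))
      (d2 b3
        (42120)))))))))))))) ?_
    simp only [e1, e2, e3, q 4, q 5, q 6, pw, td4, tc h, ha, hs, hk, hl, hz.2]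
    algebra

end Vale.Agent.P280Z.Pr
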