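import Vale.Agent.P280Z.Pr.Defs
import Vale.Agent.P280Z.Rh.Api
import Vale.Agent.P280Z.Hr.Tdx

/-!
# P280Z, block Pr: a relation for the fourth relative Todd class
-/

open scoped Manifold ContDiff Topology Matrix
open Set Filter
open Vale.Agent.P272.K Vale.Agent.P285.H281.FD Vale.Agent.P281Z
open Vale.Agent.P277.HD (pull)
open Vale.Agent.P277 (Bd.inv)
open Vale.Agent.P280Z.Rh Vale.Agent.P280Z.Ma
open Vale.Agent.P280Z.Hr (tdx coeff_td)

noncomputable section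

namespace Vale.Agent.P280Z.Pr

namespace Grr4

variable {B : Type} [CommRing B] [Algebra ℝ B]

theorem tay {x : B} (h : x ^ 4 = 0) (s : ℝ) (z a b c e : B) :
    tdx (s • x + z) a b c e 6 = tdx z a b c e 6 + s • (x * tdx z a b c e 5) +
      (s ^ 2 / 2) • (x ^ 2 * tdx z a b c e 4) + (s ^ 3 / 6) • (x ^ 3 * tdx z a b c e 3) := by
  have k : tdx (s • x + z) a b c e 6 = tdx z a b c e 6 + s • (x * tdx z a b c e 5) +
      (s ^ 2 / 2) • (x ^ 2 * tdx z a b c e 4) + (s ^ 3 / 6) • (x ^ 3 * tdx z a b c e 3) +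
      x ^ 4 * ((s ^ 4 / 24) • tdx z a b c e 2 + (s ^ 5 / 120) • (x * z) +
        (s ^ 6 / 720) • x ^ 2) := by
    simp only [tdx]
    algebra
  rw [k, h, zero_mul, add_zero]

theorem four {x q : B} (h : x ^ 2 * q = 0) (t : ℕ → B) (c e : B) :
    x ^ 2 * tdx ((1 / 2 : ℝ) • t 1) (-(1 / 24 : ℝ) • (t 2 + q)) ((1 / 2880 : ℝ) • t 4) c e 4 =
      (1 / 5760 : ℝ) • (td4 t * x ^ 2) := by
  have k : x ^ 2 * tdx ((1 / 2 : ℝ) • t 1) (-(1 / 24 : ℝ) • (t 2 + q)) ((1 / 2880 : ℝ) • t 4) c e 4 =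
      (1 / 5760 : ℝ) • (td4 t * x ^ 2) + x ^ 2 * q * (-(1 / 192 : ℝ) • t 1 ^ 2 +
        (1 / 576 : ℝ) • t 2 + (1 / 1152 : ℝ) • q) := by
    simp only [tdx, td4]
    algebra
  rw [k, h, zero_mul, add_zero]

theorem three (s : ℝ) (x a b c e : B) :
    tdx (s • x) a b c e 3 = s • (x * a) + (s ^ 3 / 6) • x ^ 3 := by
  simp only [tdx]
  algebra

end Grr4

open Grr4 in
theorem grr4_of (hH : H0P) : GRR4 := by
  intro T th V Y π h fV fY hc
  have hT := th.ok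
  have kY : T.Kc Y (cX T Y) := by rw [cX, hT.ch.tan]; exact fY
  have kV : T.Kc V (cX T V) := by rw [cX, hT.ch.tan]; exact fV
  have big : ∀ k a, 3 < k → T.Dg Y k a → T.pull h.hol a = 0 := fun k a hk ha => by
    rw [← ha, hT.rg.pr_zero _ _ _ hk, map_zero]
  have x4 : T.pull h.hol (cX T Y) ^ 4 = 0 := by
    rw [← map_pow]
    exact big 4 _ (by norm_num) (dg_pow hT (dg_cX hT Y) 4)
  have q2 : T.pull h.hol (cX T Y) ^ 2 * T.pull h.hol (T.ps Y (VB.tan 3 Y.X) 2) = 0 := by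
    rw [← map_pow, ← map_mul]
    exact big (2 + 2) _ (by norm_num)
      (hT.rg.dg_mul _ _ _ _ _ (dg_pow hT (dg_cX hT Y) 2) (hT.ch.deg _ _ 2))
  have p4 : T.ps V (VB.tan 6 V.X) 4 = tr T h.hol 4 := by
    rw [tr, big 4 _ (by norm_num) (hT.ch.deg _ _ 4), sub_zero]
  have p2 : T.ps V (VB.tan 6 V.X) 2 = tr T h.hol 2 + T.pull h.hol (T.ps Y (VB.tan 3 Y.X) 2) :=
    (sub_add_cancel _ _).symm
  have rr : ∀ k : ℕ, T.RR V ((k : ℝ) • T.pull h.hol (cX T Y)) = T.RR Y ((k : ℝ) • cX T Y) := by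
    intro k
    have l1 := lb_pow (lb_inv (lb_can Y)) k
    have c1 : T.c1 Y ((Bd.inv (Bd.can 3 Y.X)).pow k) = (k : ℝ) • cX T Y := by
      rw [hT.c1.pow Y _ k (lb_inv (lb_can Y)), c1_acan hT]
    have c2 : T.c1 V (pull π ((Bd.inv (Bd.can 3 Y.X)).pow k)) =
        (k : ℝ) • T.pull h.hol (cX T Y) := by
      rw [hT.c1.pull h.hol _ l1, c1, map_smul]
    have n1 := nn_smul hT (kc_nn hT kY) (Nat.cast_nonneg k)
    rw [← c1, ← c2, ← th.hrr V _ (h.hol.lb l1), ← th.hrr Y _ l1, hH π _ h hc l1]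
    · rw [Ld.Ap, c1, sub_eq_neg_add]
      exact kc_add hT fY n1
    · rw [Ld.Ap, c2, sub_eq_neg_add, ← map_smul]
      exact kc_add hT fV (nn_pull hT h.hol n1)
  obtain ⟨A0, A1, A3, B1, B3, e⟩ : ∃ A0 A1 A3 B1 B3 : ℝ, ∀ k : ℕ,
      A0 + (k + 1 / 2) * A1 + (k + 1 / 2) ^ 2 / 2 * (1 / 5760 *
        T.int V (td4 (tr T h.hol) * T.pull h.hol (cX T Y) ^ 2)) + (k + 1 / 2) ^ 3 / 6 * A3 =
      (k + 1 / 2) * B1 + (k + 1 / 2) ^ 3 / 6 * B3 := ⟨_, _, _, _, _, fun k => by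
    have e1 : (k : ℝ) • T.pull h.hol (cX T Y) + (1 / 2 : ℝ) • T.ps V (VB.tan 6 V.X) 1 =
        ((k : ℝ) + 1 / 2) • T.pull h.hol (cX T Y) + (1 / 2 : ℝ) • tr T h.hol 1 := by
      rw [tr, smul_sub, add_smul]
      abel
    have e2 := rr k
    rw [CT.RR, CT.RR, coeff_td _ _ (by norm_num), coeff_td _ _ (by norm_num), e1, ← add_smul,
      three, tay x4, p2, p4, four q2] at e2
    simpa only [map_add, map_smul, smul_eq_mul] using e2⟩
  have e0 := e 0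
  have e1 := e 1
  have e2 := e 2
  have e3 := e 3
  rw [map_pow]
  push_cast at e0 e1 e2 e3
  linarith

end Vale.Agent.P280Z.Pr
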