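import Vale.Agent.P280Z.Pr.Defs
import Vale.Agent.P280Z.Po.Defs
import Vale.Agent.P280Z.Ld.Api

/-!
# P280Z, block Pr: the sections of a pull back (row H0P)
-/

open Vale.Agent.P277.HD (pull)
open Vale.Agent.P280Z.Ld (Γ res nm nm_mem nm_of nm_not res_mem)

namespace Vale.Agent.P280Z.Pr

theorem h0p_of (hD : Po.DESC) : H0P := fun {n y V Y} π A hπ hc hA => by
  refine (LinearEquiv.ofBijective ((res π A).restrict
    (p := Γ y A) (q := Γ n (pull π A)) fun s hs => res_mem hπ.hol hs)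
      ⟨fun s t e => Subtype.ext (funext₂ fun a b => ?_), fun u => ?_⟩).finrank_eq.symm
  · obtain ⟨x, rfl⟩ := (hc b).nonempty
    exact congrFun (congrFun (congrArg Subtype.val e) a) x
  · obtain ⟨s, hs, e⟩ := hD V Y π A hπ hc hA u.1 u.2.1
    refine ⟨⟨_, nm_mem hA hs⟩, Subtype.ext (funext₂ fun a x => ?_)⟩
    by_cases h : π x ∈ A.U a
    · exact (nm_of h).trans (e a x h)
    · exact (nm_not h).trans (u.2.2 a x h).symm

end Vale.Agent.P280Z.Pr
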