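import Vale.Agent.P280Z.Pr.Defs
import Vale.Agent.P280Z.Rh.Api
import Vale.Agent.P280Z.Hr.Tdx
import Vale.Agent.P280Z.Gm.Rt

/-!
# P280Z, block Pr: the row HILB
-/

open Vale.Agent.P272.K Vale.Agent.P285.H281.FD Vale.Agent.P281Z
open Vale.Agent.P277Z.Slc (lin)
open Vale.Agent.P277.HD (pull)
open Vale.Agent.P280Z.Rh

noncomputable section

namespace Vale.Agent.P280Z.Pr

namespace Hilb

theorem ex5 {A : Type} [CommRing A] [Algebra ℝ A] (I : A →ₗ[ℝ] ℝ) {x H : A} (α γ : A)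
    (hx : x ^ 4 = 0) (hH : H ^ 4 = 0) (a b : ℝ) :
    I ((1 / 120 : ℝ) • (a • x + b • H) ^ 5 + (1 / 6 : ℝ) • ((a • x + b • H) ^ 3 * α) +
      (a • x + b • H) * γ) =
    (a ^ 3 * b ^ 2 * I (H ^ 2 * x ^ 3) + a ^ 2 * b ^ 3 * I (x ^ 2 * H ^ 3)) / 12 +
      (a ^ 3 * I (x ^ 3 * α) + 3 * a ^ 2 * b * I (x ^ 2 * H * α) +
        3 * a * b ^ 2 * I (x * H ^ 2 * α) + b ^ 3 * I (H ^ 3 * α)) / 6 +
      (a * I (x * γ) + b * I (H * γ)) := by
  have e5 : (a • x + b • H) ^ 5 =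
      (10 * a ^ 3 * b ^ 2) • (H ^ 2 * x ^ 3) + (10 * a ^ 2 * b ^ 3) • (x ^ 2 * H ^ 3) := by
    simp only [Algebra.smul_def, map_mul, map_pow, map_ofNat]
    generalize algebraMap ℝ A a = p
    generalize algebraMap ℝ A b = q
    linear_combination (p ^ 5 * x + 5 * p ^ 4 * q * H) * hx + (q ^ 5 * H + 5 * p * q ^ 4 * x) * hH
  have e3 : (a • x + b • H) ^ 3 * α = a ^ 3 • (x ^ 3 * α) + (3 * a ^ 2 * b) • (x ^ 2 * H * α) +
      (3 * a * b ^ 2) • (x * H ^ 2 * α) + b ^ 3 • (H ^ 3 * α) := by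
    simp only [Algebra.smul_def, map_mul, map_pow, map_ofNat]
    ring
  rw [e5, e3, add_mul, smul_mul_assoc, smul_mul_assoc]
  simp only [map_add, map_smul, smul_eq_mul]
  ring

/-- the Hilbert polynomial -/
def pl (v c3 c2 c1 c0 f g a b : ℝ) : ℝ := (a ^ 3 * b ^ 2 * v + a ^ 2 * b ^ 3 * v) / 12 +
  (a ^ 3 * c3 + 3 * a ^ 2 * b * c2 + 3 * a * b ^ 2 * c1 + b ^ 3 * c0) / 6 + (a * f + b * g)

theorem fin {v c3 c2 c1 c0 f g : ℝ} (o : 1 = pl v c3 c2 c1 c0 f g (0 + 3 / 2) (0 + 3 / 2))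
    (a1 : pl v c3 c2 c1 c0 f g (-1 + 3 / 2) (-1 + 3 / 2) = 0)
    (a2 : pl v c3 c2 c1 c0 f g (-1 + 3 / 2) (3 + 3 / 2) = 0)
    (a3 : pl v c3 c2 c1 c0 f g (-1 + 3 / 2) (7 + 3 / 2) = 0)
    (a5 : pl v c3 c2 c1 c0 f g (3 + 3 / 2) (-1 + 3 / 2) = 0)
    (a6 : pl v c3 c2 c1 c0 f g (7 + 3 / 2) (-1 + 3 / 2) = 0) :
    v = 1 ∧ pl v c3 c2 c1 c0 f g (1 + 3 / 2) (1 + 3 / 2) = 15 := by
  norm_num only [pl] at *
  constructor <;> linarith

variable {T : CT} {V : Mf 5} {Y : Mf 3} {π : V.X → Y.X} {h : Sub 5 3 π} {w : T.H Y} {x : T.H V}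

theorem p4 (hT : T.OK) (k : Hf T h w x) : T.pull h.hol w ^ 4 = 0 := by
  rw [← map_pow, ← Ma.dg_pow hT (hT.po.deg k.kc) 4, hT.rg.pr_zero _ _ _ (by norm_num), map_zero]

theorem vol (hT : T.OK) (k : Hf T h w x) :
    T.int V (x ^ 2 * T.pull h.hol w ^ 3) = T.int Y (w ^ 3) := by
  rw [← hT.pu.int h, ← map_pow, hT.pu.proj h, k.vol, one_mul]

theorem cp (hT : T.OK) (k : Hf T h w x) :
    T.c1 V (pull π (Bd.can 3 Y.X)) = (-4 : ℝ) • T.pull h.hol w := by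
  rw [hT.c1.pull h.hol _ (lb_can Y), k.can, map_smul]

end Hilb

open Hilb in
/-- row HILB -/
theorem hilb : HILB := by
  intro T V Y Y' π π' h h' w w' k
  have hT := k.th.ok
  obtain ⟨c3, c2, c1, c0, f, g, r⟩ : ∃ c3 c2 c1 c0 f g : ℝ, ∀ a b : ℝ,
      T.RR V (a • T.pull h'.hol w' + b • T.pull h.hol w) =
        pl (T.int Y (w ^ 3)) c3 c2 c1 c0 f g (a + 3 / 2) (b + 3 / 2) := by
    refine ⟨?_, ?_, ?_, ?_, ?_, ?_, fun a b => ?_⟩
    rotate_right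
    have e : a • T.pull h'.hol w' + b • T.pull h.hol w + (1 / 2 : ℝ) • T.ps V (VB.tan 5 V.X) 1 =
        (a + 3 / 2) • T.pull h'.hol w' + (b + 3 / 2) • T.pull h.hol w := by
      rw [hT.ch.tan, k.can]
      module
    rw [CT.RR, Hr.coeff_td _ _ (by norm_num), Hr.tdx, e, ex5 _ _ _ (p4 hT k.r) (p4 hT k.l),
      vol hT k.l, vol hT k.r, ← k.eq]
    rfl
  have z : ∀ (i j l : ℤ) (a b : ℝ), a = -3 * i - 4 * l → b = -3 * i - 4 * j → -3 < a → -3 < b →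
      (a < 0 ∨ b < 0) → T.RR V (a • T.pull h'.hol w' + b • T.pull h.hol w) = 0 := by
    intro i j l a b ha hb h1 h2 h3
    have hL : ∀ s, IsLB 5 (![Bd.can 5 V.X, pull π (Bd.can 3 Y.X), pull π' (Bd.can 3 Y'.X)] s) :=
      fun s => by
        fin_cases s
        exacts [lb_can V, h.hol.lb (lb_can Y), h'.hol.lb (lb_can Y')]
    have hM := lb_lin hL ![i, j, l]
    have e : T.c1 V (lin ![Bd.can 5 V.X, pull π (Bd.can 3 Y.X), pull π' (Bd.can 3 Y'.X)]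
        ![i, j, l]) = a • T.pull h'.hol w' + b • T.pull h.hol w := by
      rw [hT.c1.lin V _ _ hL, Fin.sum_univ_three]
      simp only [Matrix.cons_val_zero, Matrix.cons_val_one, Matrix.cons_val]
      rw [k.can, cp hT k.l, cp hT k.r, ha, hb]
      module
    rw [← e, ← k.th.hrr V _ hM (by
      have := k.kc (b + 3) (a + 3) (by linarith) (by linarith)
      rw [Ld.Ap, e, k.can]
      exact (congrArg (T.Kc V) (by module)).mp this), Nat.cast_eq_zero]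
    exact h3.elim (fun c => k.l.neg _ hM a b c e) fun c => k.r.neg _ hM b a c (e.trans (add_comm _ _))
  have o := (Gm.rt T hT k.th.hrr).1 V k.conn (by
    have := k.kc 3 3 (by norm_num) (by norm_num)
    rw [Gm.Fa, k.can]
    exact (congrArg (T.Kc V) (by module)).mp this)
  have o1 := r 0 0
  rw [zero_smul, zero_smul, add_zero, o] at o1
  have o2 := r 1 1
  rw [one_smul, one_smul, add_comm] at o2
  have a1 := z (-1) 1 1 (-1) (-1) (by norm_num) (by norm_num) (by norm_num) (by norm_num) (by norm_num)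
  have a2 := z (-1) 0 1 (-1) 3 (by norm_num) (by norm_num) (by norm_num) (by norm_num) (by norm_num)
  have a3 := z (-1) (-1) 1 (-1) 7 (by norm_num) (by norm_num) (by norm_num) (by norm_num) (by norm_num)
  have a5 := z (-1) 1 0 3 (-1) (by norm_num) (by norm_num) (by norm_num) (by norm_num) (by norm_num)
  have a6 := z (-1) 1 (-1) 7 (-1) (by norm_num) (by norm_num) (by norm_num) (by norm_num) (by norm_num)
  rw [r] at a1 a2 a3 a5 a6
  rw [o2]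
  exact fin o1 a1 a2 a3 a5 a6

end Vale.Agent.P280Z.Pr
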