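import Vale.Agent.P280Z.Pr.Defs
import Vale.Agent.P280Z.Rh.Api
import Vale.Agent.P280Z.Qs.Gen

/-!
# P280Z, block Pr: a consequence of the relations of Hodge and Riemann (row HR6)
-/

open Vale.Agent.P281Z Vale.Agent.P280Z.Rh

noncomputable section

namespace Vale.Agent.P280Z.Pr

namespace Hr6H

theorem core {T : CT} (hT : T.OK) {V : Mf 6} {x h : T.H V} (hx : T.Nn V x) (hh : T.Nn V h)
    (hk : T.Kc V (x + h)) (hs : ∀ a, T.Dg V 1 a → ∃ s t : ℝ, a = s • x + t • h) (x5 : x ^ 5 = 0)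
    (h5 : h ^ 5 = 0) (h0 : 0 < T.int V (x ^ 2 * h ^ 4))
    (h1 : T.int V (x ^ 4 * h ^ 2) = T.int V (x ^ 2 * h ^ 4)) (h2 : T.int V (x ^ 3 * h ^ 3) = 0) :
    False := by
  obtain ⟨a, ha⟩ : ∃ a, a = (4 : ℝ) • (x * x) - (7 : ℝ) • (x * h) + (4 : ℝ) • (h * h) := ⟨_, rfl⟩
  have dx := hT.po.deg hx
  have dh := hT.po.deg hh
  have tx := nn_ty hT hx
  have th := nn_ty hT hh
  have da : T.Dg V 2 a := by
    rw [ha, CT.Dg, map_add, map_sub, map_smul, map_smul, map_smul, hT.rg.dg_mul V 1 1 _ _ dx dx,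
      hT.rg.dg_mul V 1 1 _ _ dx dh, hT.rg.dg_mul V 1 1 _ _ dh dh]
  have h3 : T.int V (a * a * (x + h) ^ 2) = -30 * T.int V (x ^ 2 * h ^ 4) := by
    rw [show a * a * (x + h) ^ 2 = (-15 : ℝ) • (x ^ 4 * h ^ 2) + (50 : ℝ) • (x ^ 3 * h ^ 3) +
      (-15 : ℝ) • (x ^ 2 * h ^ 4) by
        rw [ha]
        linear_combination (norm := algebra) (16 * x - 24 * h) * x5 + (16 * h - 24 * x) * h5]
    simp only [map_add, map_smul, smul_eq_mul, h1, h2]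
    ring
  have h4 := hT.ho.hr hk 2 2 rfl a (ha ▸ add_mem (sub_mem ((T.Ty V).smul_mem (mul_mem tx tx) _)
    ((T.Ty V).smul_mem (mul_mem tx th) _)) ((T.Ty V).smul_mem (mul_mem th th) _)) da
    (Qs.pd_dg (Ma.ga_ok hT V ((hT.po.kah V).2 ⟨_, hk⟩)) (k := 1)
      (hT.rg.dg_mul V 3 2 _ _ (Ma.dg_pow hT (hT.po.deg hk) 3) da) rfl fun b hb => by
      obtain ⟨s, t, rfl⟩ := hs b hb
      show T.int V _ = 0
      rw [show (x + h) ^ (2 + 1) * a * (s • x + t • h) =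
        (5 * t - 5 * s) • (x ^ 4 * h ^ 2) + (-5 * s - 5 * t) • (x ^ 3 * h ^ 3) +
          (5 * s - 5 * t) • (x ^ 2 * h ^ 4) by
        rw [ha]
        linear_combination (norm := algebra) (s • (4 * x + 5 * h) + t • (4 * h)) * x5 +
          (s • (4 * x) + t • (4 * h + 5 * x)) * h5]
      simp only [map_add, map_smul, smul_eq_mul, h1, h2]
      ring)
    fun k => by
      rw [k, zero_mul, zero_mul, map_zero] at h3
      linarith
  rw [h3] at h4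
  linarith

end Hr6H

theorem hr6 : HR6 := by
  intro T hT V x h hx hh hk hs x5 h5 v2 v4 v3
  obtain ⟨s, s0, s1⟩ : ∃ s : ℝ, 0 < s ∧ s ^ 2 = T.int V (x ^ 2 * h ^ 4) :=
    ⟨_, Real.sqrt_pos.2 v2, Real.sq_sqrt v2.le⟩
  obtain ⟨t, t0, t1⟩ : ∃ t : ℝ, 0 < t ∧ t ^ 2 = T.int V (x ^ 4 * h ^ 2) :=
    ⟨_, Real.sqrt_pos.2 v4, Real.sq_sqrt v4.le⟩
  have e : ∀ j k : ℕ, T.int V ((s • x) ^ j * (t • h) ^ k) =
      s ^ j * t ^ k * T.int V (x ^ j * h ^ k) := fun j k => by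
    rw [smul_pow, smul_pow, smul_mul_smul_comm, map_smul, smul_eq_mul]
  refine Hr6H.core hT (nn_smul hT hx s0.le) (nn_smul hT hh t0.le) (hk s t s0 t0) (fun a ha => ?_)
    (by rw [smul_pow, x5, smul_zero]) (by rw [smul_pow, h5, smul_zero]) (by rw [e]; positivity)
    (by rw [e, e, ← s1, ← t1]; ring) (by rw [e, v3, mul_zero])
  obtain ⟨u, v, rfl⟩ := hs a ha
  exact ⟨u / s, v / t, by
    rw [smul_smul, smul_smul, div_mul_cancel₀ _ s0.ne', div_mul_cancel₀ _ t0.ne']⟩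

end Vale.Agent.P280Z.Pr
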