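import Vale.Agent.P280Z.Pr.Defs
import Vale.Agent.P280Z.Rh.Fanq
import Vale.Agent.P280Z.Gm.Rt

/-!
# P280Z, block Pr: row JAC, maps without ramification
-/

open scoped Manifold ContDiff Topology Matrix
open Set Function
open Vale.Agent.P272.K Vale.Agent.P285.H281.FD Vale.Agent.P281Z
open Vale.Agent.P277Z (at_chart)
open Vale.Agent.P280Z.Rh.Jac (Kr lb_Kr c1_Kr)

noncomputable section

namespace Vale.Agent.P280Z.Pr

namespace JacH

variable {n : ℕ} {V W : Mf n} {f : V.X → W.X}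

/-- the Jacobian determinant is a section of the relative canonical bundle -/
theorem sec (hf : HolM n n f) : IsSec n (Kr f) fun c x => (dfM f c.1 c.2 x).det := by
  refine isSec_of (fun c z hz => hol_det fun a b => hol_dfM (hf.at _) hz.1 hz.2 a b)
    fun c d z hc hd => ?_
  show (dfM f c.1 c.2 z).det =
    (jacM c.1 d.1 z).det * (jacM c.2 d.2 (f z)).det⁻¹ * (dfM f d.1 d.2 z).det
  rw [dfM_chg (hf.at _) hd.1 hc.1 hc.2, Matrix.det_mul, dfM_chg' (hf.at _) hd.1 hc.2 hd.2,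
    Matrix.det_mul, mul_assoc, inv_mul_cancel_left₀ (jacM_det_ne_zero hc.2 hd.2), mul_comm]

theorem nz (hf : HolM n n f) (x : V.X) :
    NZ (Kr f) (fun c x => (dfM f c.1 c.2 x).det) x ↔ Injective (Df n n f x) := by
  rw [nz_iff (lb_Kr hf) (fun a b => (sec hf).change a b x)
    (a := (chartAt (Cm n) x, chartAt (Cm n) (f x))) ⟨at_chart _, at_chart _⟩,
    injective_iff_map_eq_zero, Ne, ← Matrix.exists_mulVec_eq_zero_iff]
  exact ⟨fun k v hv => of_not_not fun c => k ⟨v, c, (dfM_mulVec v).trans hv⟩,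
    fun k ⟨v, c, hv⟩ => c (k v ((dfM_mulVec v).symm.trans hv))⟩

end JacH

open JacH in
/-- **row JAC** -/
theorem jac : JAC := by
  rintro T hT n V W f h hc hV e ⟨a, ha⟩ x
  obtain ⟨w, hw⟩ := (hT.po.kah V).1 hV
  obtain ⟨x₀, h0⟩ : ∃ x₀, Injective (Df n n f x₀) := by
    refine of_not_not fun k => ha ?_
    rw [← hT.rg.int_pr, ← hT.rg.pull_pr, hT.rg.van h n fun x => ?_, map_zero]
    have h1 := (Df n n f x).finrank_range_add_finrank_ker
    have h2 : Module.finrank ℂ (LinearMap.ker (Df n n f x)) ≠ 0 := fun c =>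
      k ⟨x, LinearMap.ker_eq_bot.1 (Submodule.finrank_eq_zero.1 c)⟩
    rw [Module.finrank_fin_fun] at h1
    omega
  exact Imm.of_chart (h.at x) (at_chart _) (at_chart _) ((nz h x).1 (Gm.RtH.nozero hT hc hw
    (lb_Kr h) (by rw [c1_Kr hT h, e, sub_self]) (sec h) ((nz h x₀).2 h0) x))

end Vale.Agent.P280Z.Pr
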