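import Vale.Agent.P280Z.Pr.Defs
import Vale.Agent.P280Z.Rh.Api

/-!
# P280Z, block Pr: two families with fibres of dimension two on a manifold of dimension five
-/

open scoped Manifold ContDiff Topology Matrix
open Set Filter
open Vale.Agent.P272.K Vale.Agent.P285.H281.FD Vale.Agent.P281Z Vale.Agent.P280Z.Ma
open Vale.Agent.P277 (Bd.inv)
open Vale.Agent.P277.HD (pull)
open Vale.Agent.P280Z.Rh

noncomputable section

namespace Vale.Agent.P280Z.Pr

namespace K5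

variable {T : CT} {n : ℕ} {V : Mf n} {B : Bas T V} {i j : B.J}

theorem symm (h : Two B i j) : Two B j i :=
  ⟨h.th, h.cls, h.ne.symm, fun k => (h.all k).symm, h.pos⟩

theorem span2 (h : Two B i j) {a : T.H V} (ha : T.Dg V 1 a) :
    a = (B.F i).dg a • B.H i + (B.F j).dg a • B.H j := by
  have k : (Finset.univ : Finset B.J) = {i, j} := Finset.ext fun k => by simpa using h.all k
  have k' := B.span a ha
  rwa [k, Finset.sum_pair h.ne] at k'

theorem hS_one (j : B.J) : hS B {j} = B.H j := by simp [hS]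

theorem compl (h : Two B i j) : ({j}ᶜ : Set B.J) = {i} := Set.ext fun k => by
  rcases h.all k with rfl | rfl <;> simp [h.ne, h.ne.symm]

theorem push_low (hT : T.OK) {y d k : ℕ} {Y : Mf y} {π : V.X → Y.X} (s : Sub n y π)
    (hd : n = y + d) {a : T.H V} (ha : T.Dg V k a) (hk : k < d) : T.push π a = 0 := by
  rw [← hT.rg.pr_sum Y (T.push π a)]
  refine Finset.sum_eq_zero fun l _ => ?_
  rw [hT.pu.deg s d hd, ← ha, hT.rg.pr_pr, if_neg (by omega), map_zero]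

theorem cX_eq (h : Two B i j) (hi : (B.F i).m = 1) (hj : (B.F j).m = 1) :
    cX T V = (3 : ℝ) • B.H i + (3 : ℝ) • B.H j := by
  rw [span2 h (dg_cX h.th.ok V), (B.F i).c1, (B.F j).c1, hi, hj]
  norm_num

theorem half (h2 : CM2) (h6 : NEG) {V : Mf 5} {B : Bas T V} {i j : B.J} (h : Two B i j)
    (hi : (B.F i).m = 1) (hj : (B.F j).m = 1) (Q : Qt B.F {j}) (hd : Q.d = 2)
    (f1 : FA (nsm (B.F j)) 5 1 Q.d Q.y (tr T Q.sub.hol))
    (f2 : Pl (nsm (B.F j)) Q.y (tr T Q.sub.hol)) (f3 : T.push Q.π (tr T Q.sub.hol 1 ^ 2) = 9)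
    {w : T.H Q.Y} (f4 : T.Kc Q.Y w) (f5 : B.H i = T.pull Q.sub.hol w) :
    ∃ (Y : Mf 3) (π : V.X → Y.X) (s : Sub 5 3 π) (w : T.H Y) (b : ℤ), B.H i = T.pull s.hol w ∧
      T.int V (B.H j ^ 3 * B.H i ^ 2) = b * T.int V (B.H j ^ 2 * B.H i ^ 3) ∧
      (b = 1 → Hf T s w (B.H j) ∧ T.int Y (w ^ 3) = T.int V (B.H j ^ 2 * B.H i ^ 3)) := by
  have hT := h.th.ok
  have g1 := Q.conn h.cls.1.1
  have g2 := fun b => Q.dg_pull hT (mem_singleton j) (b := b)
  have g3 := fun b => (Q.s4 _).2 ⟨b, rfl⟩ j (mem_singleton j)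
  obtain ⟨y, d, Y, π, s, dim, onto, _, fib, _, _, _⟩ := Q
  dsimp only at *
  subst hd
  obtain rfl : y = 3 := by omega
  have hV : V.Kah := (hT.po.kah V).2 ⟨_, (B.F j).kη⟩
  have dw : T.Dg Y 1 w := hT.po.deg f4
  have dx : T.Dg V 1 (B.H j) := hT.po.deg (B.nn j)
  have g4 : ∀ L, IsLB 3 L → ∃ a : ℤ, T.c1 Y L = (a : ℝ) • w := fun L hL => by
    obtain ⟨a, ha⟩ := (h6 T hT (B.F i) _ (s.hol.lb hL)).1
    rw [hT.c1.pull s.hol L hL] at ha
    refine ⟨a, sub_eq_zero.1 (pull_inj hT s dim onto g1 hV ?_)⟩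
    rw [map_sub, map_smul, ← f5, span2 h (dg_pull hT _ (hT.c1.deg Y L)), ha,
      g2 _ (hT.c1.deg Y L), zero_smul, add_zero, sub_self]
  obtain ⟨a, ha⟩ := g4 _ (lb_inv (lb_can Y))
  rw [c1_acan hT] at ha
  have g5 : tr T s.hol 1 = (3 : ℝ) • B.H j - ((a - 3 : ℤ) : ℝ) • B.H i := by
    rw [tr, show T.ps V _ 1 = _ from cX_eq h hi hj, show T.ps Y _ 1 = _ from ha, map_smul, ← f5]
    push_cast
    module
  have g6 : B.H i ^ 4 = 0 := by
    rw [f5, ← map_pow, ← dg_pow hT dw 4, hT.rg.pr_zero _ _ _ (by norm_num), map_zero]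
  have g7 : T.int V (tr T s.hol 1 ^ 3 * B.H i ^ 2) = 0 :=
    h2 _ _ 5 3 f1 f2 2 (B.H i ^ 2) rfl ⟨dg_pow hT (hT.po.deg (B.nn i)) 2, by
      rw [f5, ← map_pow]
      exact g3 _⟩
  refine ⟨Y, π, s, w, a - 3, f5, ?_, fun hb => ?_⟩
  · generalize ((a - 3 : ℤ) : ℝ) = b at g5 ⊢
    have e : tr T s.hol 1 ^ 3 * B.H i ^ 2 = (27 : ℝ) • (B.H j ^ 3 * B.H i ^ 2) -
        (27 * b) • (B.H j ^ 2 * B.H i ^ 3) := by
      rw [g5]
      simp only [Algebra.smul_def, map_mul, map_ofNat]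
      linear_combination (9 * algebraMap ℝ _ b ^ 2 * B.H j - algebraMap ℝ _ b ^ 3 * B.H i) * g6
    rw [e, map_sub, map_smul, map_smul, smul_eq_mul, smul_eq_mul] at g7
    linarith
  · have e : tr T s.hol 1 ^ 2 = (9 : ℝ) • B.H j ^ 2 - (6 : ℝ) • (B.H j * T.pull s.hol w) +
        1 * T.pull s.hol (w ^ 2) := by
      rw [g5, hb, map_pow, ← f5]
      simp only [Algebra.smul_def, map_ofNat, Int.cast_one, map_one]
      ring
    rw [e, map_add, map_sub, map_smul, map_smul, hT.pu.proj s, hT.pu.proj s,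
      push_low hT s dim dx (by norm_num), push_low hT s dim (hT.rg.dg_one V) (by norm_num),
      zero_mul, zero_mul, smul_zero, sub_zero, add_zero] at f3
    have g8 : T.push π (B.H j ^ 2) = 1 := smul_right_injective _ (show (9 : ℝ) ≠ 0 by norm_num) (by
      simp only [f3, Algebra.smul_def, map_ofNat, mul_one])
    refine ⟨⟨g1, fib, f4, ?_, g4, g8, fun M hM c c' hc k => (h6 T hT (B.F j) M hM).2 ?_⟩, ?_⟩
    · rw [← neg_inj, ← hT.ch.tan, show T.ps Y _ 1 = _ from ha, show a = 4 by omega]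
      simp
    · rwa [k, map_add, map_smul, map_smul, g2 w dw, B.dual, if_pos rfl, smul_eq_mul, mul_one,
        smul_zero, add_zero]
    · rw [← hT.pu.int s, f5, ← map_pow, hT.pu.proj s, g8, one_mul]

end K5

open K5

theorem k225_of (h1 : FAX) (h2 : CM2) (h3 : RD) (h4 : PL2) (h5 : POSJ) (h6 : NEG) (h7 : GEN5) :
    K225 := by
  intro T V B i j h di dj
  have hT := h.th.ok
  have hc : ConnectedSpace V.X := h.cls.1.1
  have hm : ∀ k, (B.Q {k}).d = 2 → (B.F k).m = 1 := fun k hk => by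
    have := h3 _ _ _ _ _ _ (h1 T hT B.F k (B.Q {k}) hc)
    have := h.pos k
    omega
  have key : ∀ {i j}, Two B i j → (B.Q {i}).d = 2 → (B.Q {j}).d = 2 →
      0 < T.int V (B.H j ^ 2 * B.H i ^ 3) ∧
      ∃ (Y : Mf 3) (π : V.X → Y.X) (s : Sub 5 3 π) (w : T.H Y) (b : ℤ), B.H i = T.pull s.hol w ∧
        T.int V (B.H j ^ 3 * B.H i ^ 2) = b * T.int V (B.H j ^ 2 * B.H i ^ 3) ∧
        (b = 1 → Hf T s w (B.H j) ∧ T.int Y (w ^ 3) = T.int V (B.H j ^ 2 * B.H i ^ 3)) := by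
    intro i j h di dj
    obtain ⟨⟨w, k1, k2⟩, k3⟩ := h5 T hT B hc {j}
    have k4 : hS B {j}ᶜ = B.H i := by rw [compl h, hS_one]
    have k5 := (B.Q {j}).dim
    rw [k4, hS_one, dj, show (B.Q {j}).y = 3 by omega] at k3
    obtain ⟨k6, k7⟩ := h4 T h.th V B h.cls j (hm j dj) dj
    have k8 := h1 T hT B.F j (B.Q {j}) hc
    rw [hm j dj] at k8
    exact ⟨k3, half h2 h6 h (hm i di) (hm j dj) _ dj k8 k6 k7 k1 (k4 ▸ k2)⟩
  obtain ⟨p1, Y, π, s, w, b, p2, p3, p4⟩ := key h di dj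
  obtain ⟨q1, Y', π', s', w', b', q2, q3, q4⟩ := key (symm h) dj di
  rw [mul_comm (B.H i ^ 2)] at q1 q3 q4
  rw [mul_comm (B.H i ^ 3)] at q3
  have e1 : b * b' = 1 := by
    have : ((b * b' : ℤ) : ℝ) = (1 : ℤ) := mul_right_cancel₀ p1.ne' (by
      push_cast
      linear_combination -q3 - (b' : ℝ) * p3)
    exact Int.cast_injective this
  have e2 : 0 < b := Int.cast_pos.1 ((mul_pos_iff_of_pos_right p1).1 (p3 ▸ q1))
  have e3 : b = 1 := Int.eq_one_of_mul_eq_one_right e2.le e1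
  obtain ⟨p5, p6⟩ := p4 e3
  obtain ⟨q5, q6⟩ := q4 (by rwa [e3, one_mul] at e1)
  refine h7 T s s' w w' ⟨h.th, hc, q2 ▸ p5, p2 ▸ q5, ?_, fun a c ha hc => ?_, ?_⟩
  · rw [← neg_inj, ← hT.ch.tan, show T.ps V _ 1 = _ from cX_eq h (hm i di) (hm j dj), ← p2, ← q2]
    module
  · rw [← p2, ← q2]
    refine B.kc _ ?_ fun k => ?_
    · rw [CT.Dg, map_add, map_smul, map_smul, hT.po.deg (B.nn i), hT.po.deg (B.nn j)]
    · rw [map_add, map_smul, map_smul, B.dual, B.dual]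
      rcases h.all k with rfl | rfl <;> simpa [h.ne, h.ne.symm]
  · rw [p6, q6, p3, e3, Int.cast_one, one_mul]

end Vale.Agent.P280Z.Pr
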