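import Vale.Agent.P280Z.Pr.Defs
import Vale.Agent.P280Z.Rh.Api

/-!
# P280Z, block Pr: the case `(2, 2; 6)`
-/

open Set
open Vale.Agent.P272.K Vale.Agent.P285.H281.FD Vale.Agent.P281Z
open Vale.Agent.P280Z.Rh Vale.Agent.P280Z.Ma

namespace Vale.Agent.P280Z.Pr

namespace K226H

section alg
variable {A B : Type} [CommRing A] [Algebra ℝ A] [CommRing B] [Algebra ℝ B]

theorem fa_cast {S : NS A B} {n r d y r' d' y' : ℕ} {t : ℕ → A} (h : FA S n r d y t) (hr : r = r')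
    (hd : d = d') (hy : y = y') : FA S n r' d' y' t := by
  subst hr hd hy
  exact h

theorem cube (I : A →ₗ[ℝ] ℝ) {x g z : A} {b : ℝ} (h : g ^ 2 * z = 0)
    (h0 : I ((3 * x - b • g) ^ 3 * z) = 0) : I (z * (x ^ 2 * (x - b • g))) = 0 := by
  have e : (3 * x - b • g) ^ 3 * z = (27 : ℝ) • (z * (x ^ 2 * (x - b • g))) := by
    simp only [Algebra.smul_def, map_ofNat]
    linear_combination (9 * algebraMap ℝ A b ^ 2 * x - algebraMap ℝ A b ^ 3 * g) * h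
  rw [e, map_smul, smul_eq_zero] at h0
  exact h0.resolve_left (by norm_num)

end alg

theorem num {b c : ℤ} (hb : 0 < b) (hc : 0 < c) (h : b ^ 3 * c + 2 * b * c ^ 2 = 4 * b ^ 2 + 3 * c)
    (k : c ^ 3 * b + 2 * c * b ^ 2 = 4 * c ^ 2 + 3 * b) : False := by
  have h1 : b * c ≤ 3 := by
    by_contra h1
    nlinarith [mul_nonneg (sq_nonneg b) (show 0 ≤ b * c - 4 by omega),
      mul_pos hc (show 0 < 2 * (b * c) - 3 by omega)]
  have h2 : b ≤ 3 := by nlinarith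
  have h3 : c ≤ 3 := by nlinarith
  interval_cases b <;> interval_cases c <;> omega

variable {T : CT} {V : Mf 6} {B : Bas T V} {i j : B.J}

theorem symm (h : Two B i j) : Two B j i :=
  ⟨h.th, h.cls, h.ne.symm, fun k => (h.all k).symm, h.pos⟩

theorem sum_two (h : Two B i j) (f : B.J → T.H V) : ∑ k, f k = f j + f i := by
  rw [show (Finset.univ : Finset B.J) = {j, i} from Finset.ext fun k => by
    simpa using (h.all k).symm, Finset.sum_pair h.ne.symm]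

theorem dgH (h : Two B i j) (k : B.J) : T.Dg V 1 (B.H k) := h.th.ok.po.deg (B.nn k)

theorem pow5 (h : Two B i j) (hd : (B.Q {j}).d = 2) : B.H i ^ 5 = 0 :=
  (B.Q {j}).pow_zero' h.th.ok (dgH h i) (fun k hk => by
    rw [mem_singleton_iff.1 hk, B.dual, if_neg h.ne.symm]) (by have := (B.Q {j}).dim; omega)

/-- the relations given by the family `j` -/
theorem half (hF : FAX) (hS : S226) (hR : RD) (hP : PL2) (hJ : POSJ) (hN : NEG) (hC : CM2)
    (h : Two B i j) (hi : (B.Q {i}).d = 2) (hd : (B.Q {j}).d = 2) {x g P : T.H V} (hx : x = B.H j)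
    (hg : g = B.H i) (hp : P = T.ps V (VB.tan 6 V.X) 3) : ∃ b : ℤ, 0 < T.int V (x ^ 2 * g ^ 4) ∧
      T.int V (x ^ 3 * g ^ 3) = b * T.int V (x ^ 2 * g ^ 4) ∧
      T.int V (P * x ^ 3) - b * T.int V (P * (x ^ 2 * g)) =
        12 * (b ^ 2 * T.int V (x ^ 4 * g ^ 2)) - 3 * (b ^ 3 * T.int V (x ^ 3 * g ^ 3)) ∧
      b ^ 2 * T.int V (P * (g ^ 2 * x)) =
        9 * (b ^ 2 * T.int V (x ^ 4 * g ^ 2)) - 6 * (b ^ 3 * T.int V (x ^ 3 * g ^ 3)) ∧
      b ^ 3 * T.int V (P * g ^ 3) = 0 := by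
  have hT := h.th.ok
  have hy : (B.Q {j}).y = 4 := by have := (B.Q {j}).dim; omega
  have f0 := hF T hT B.F j (B.Q {j}) h.cls.1.1
  have hm : (B.F j).m = 1 := by
    have := hR _ _ _ _ _ _ f0
    have := h.pos j
    omega
  have f1 := fa_cast f0 hm hd hy
  have f2 := (congrArg (fun y => Pl (nsm (B.F j)) y (tr T (B.Q {j}).sub.hol)) hy).mp
    (hP T h.th V B h.cls j hm hd).1
  have f3 := hC _ _ _ _ f1 f2
  have iv : ∀ k a, T.Dg (B.Q {j}).Y k a → Iv (nsm (B.F j)) k (T.pull (B.Q {j}).sub.hol a) :=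
    fun k a ha => ⟨dg_pull hT _ ha, ((B.Q {j}).s4 _).2 ⟨a, rfl⟩ j rfl⟩
  obtain ⟨w, w1, w2⟩ := (B.Q {j}).ex1 hT (dgH h i) fun k hk => by
    rw [mem_singleton_iff.1 hk, B.dual, if_neg h.ne.symm]
  have lK := lb_can (B.Q {j}).Y
  obtain ⟨z, hz⟩ := (hN T hT (B.F i) _ ((B.Q {j}).sub.hol.lb lK)).1
  have t1 : tr T (B.Q {j}).sub.hol 1 = 3 * x - ((-((B.F i).m + 2 + z) : ℤ) : ℝ) • g := by
    rw [B.span _ (f1.dt 1), sum_two h, tr, map_sub, map_sub, (B.F j).c1, (B.F i).c1,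
      (B.Q {j}).dg_pull hT rfl (hT.ch.deg _ _ 1), hT.ch.tan, map_neg, ← hT.c1.pull _ _ lK, map_neg,
      hz, hm, hx, hg]
    push_cast
    simp only [Algebra.smul_def, map_sub, map_add, map_neg, map_one, map_zero, map_ofNat]
    ring
  generalize -(((B.F i).m : ℤ) + 2 + z) = b at t1
  have g5 : g ^ 5 = 0 := hg ▸ pow5 h hd
  obtain ⟨q, q1, q2, q3⟩ : ∃ q, P = tr T (B.Q {j}).sub.hol 3 + q ∧ Iv (nsm (B.F j)) 3 q ∧
      g ^ 2 * q = 0 := ⟨_, by rw [hp, tr, sub_add_cancel], iv 3 _ (hT.ch.deg _ _ 3), by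
    rw [hg, w2, ← map_pow, ← map_mul]
    exact f1.van 5 _ (by omega)
      (iv _ _ (hT.rg.dg_mul _ 2 3 _ _ (dg_pow hT w1 2) (hT.ch.deg _ _ 3)))⟩
  have c1 := cube (T.int V) (x := x) (b := b) (z := g ^ 3) (by rw [← pow_add, g5]) (by
    rw [← t1, hg, w2, ← map_pow]
    exact f3 3 _ rfl (iv 3 _ (dg_pow hT w1 3)))
  have c2 := cube (T.int V) (x := x) (b := b) q3 (t1 ▸ f3 3 q rfl q2)
  obtain ⟨s1, s2, s3⟩ := hS _ _ f1 f2 x ((b : ℝ) • g) ⟨hx ▸ dgH h j, by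
    have := (B.F j).hdg _ (dgH h j)
    rwa [B.dual, if_pos rfl, map_one, ← hx] at this⟩ (hx ▸ pow5 (symm h) hi)
    (by rw [t1, sub_sub_cancel])
  change T.int V _ = 12 * T.int V _ - 3 * T.int V _ at s1
  change T.int V _ = 9 * T.int V _ - 6 * T.int V _ at s2
  change T.int V _ = 0 at s3
  have p := (hJ T hT B h.cls.1.1 {j}).2
  rw [hd, hy, Pr.hS, Pr.hS, sum_two h, sum_two h] at p
  simp only [mem_singleton_iff, mem_compl_iff, h.ne, if_true, if_false, not_true, not_false_iff,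
    add_zero, zero_add, ← hx, ← hg] at p
  simp only [smul_pow, mul_smul_comm, map_smul, smul_eq_mul] at s1 s2 s3
  refine ⟨b, p, ?_, ?_, ?_, ?_⟩
  · rw [mul_sub, mul_sub, mul_smul_comm, mul_smul_comm, map_sub, map_smul, sub_eq_zero,
      show g ^ 3 * (x ^ 2 * x) = x ^ 3 * g ^ 3 by ring,
      show g ^ 3 * (x ^ 2 * g) = x ^ 2 * g ^ 4 by ring] at c1
    exact c1
  · rw [← s1, ← add_zero (T.int V (tr T _ 3 * _)), ← c2, ← map_add, ← add_mul, ← q1, mul_sub,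
      mul_sub, mul_smul_comm, mul_smul_comm, map_sub, map_smul, ← pow_succ, smul_eq_mul]
  · rw [← s2, q1, add_mul, ← mul_assoc q, mul_comm q, q3, zero_mul, add_zero, mul_comm x]
  · rw [← s3, q1, add_mul, pow_succ g 2, ← mul_assoc q, mul_comm q, q3, zero_mul, add_zero]

end K226H

open K226H in
/-- **row K226** -/
theorem k226_of (hF : FAX) (hS : S226) (hR : RD) (hP : PL2) (hJ : POSJ) (hH : HR6) (hN : NEG)
    (hC : CM2) : K226 := by
  intro T V B i j h hi hj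
  have hT := h.th.ok
  obtain ⟨b, a1, a2, a3, a4, a5⟩ := half hF hS hR hP hJ hN hC h hi hj rfl rfl rfl
  obtain ⟨c, b1, b2, b3, b4, b5⟩ := half hF hS hR hP hJ hN hC (symm h) hj hi rfl rfl rfl
  rw [mul_comm (B.H i ^ 2)] at b1 b2
  rw [mul_comm (B.H i ^ 4)] at b3 b4
  rw [mul_comm (B.H i ^ 3)] at b2 b3 b4
  have h1 := hH T hT V (B.H j) (B.H i) (B.nn j) (B.nn i) (fun s t hs ht => B.kc _ (by
      rw [CT.Dg, map_add, map_smul, map_smul, dgH h j, dgH h i]) fun k => by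
      rw [map_add, map_smul, map_smul, B.dual, B.dual]
      rcases h.all k with rfl | rfl <;> simp [h.ne, h.ne.symm, hs, ht])
    (fun a ha => ⟨_, _, (B.span a ha).trans (sum_two h _)⟩) (pow5 (symm h) hi) (pow5 h hj) a1 b1
  have h2 : 0 < T.int V (B.H j ^ 3 * B.H i ^ 3) := (hT.po.wp_int (wp_pow hT (B.nn j)
    (mul_one (B.H i ^ 3) ▸ wp_pow hT (B.nn i) (hT.po.wp_one V) 3) 3)).lt_of_ne' h1
  have hb : (0 : ℝ) < b := (mul_pos_iff_of_pos_right a1).1 (a2 ▸ h2)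
  have hc : (0 : ℝ) < c := (mul_pos_iff_of_pos_right b1).1 (b2 ▸ h2)
  have key : ∀ b c v2 v3 v4 p0 p1 : ℝ, 0 < c → 0 < v3 → v3 = b * v2 → v3 = c * v4 →
      p0 - b * p1 = 12 * (b ^ 2 * v4) - 3 * (b ^ 3 * v3) →
      c ^ 2 * p1 = 9 * (c ^ 2 * v2) - 6 * (c ^ 3 * v3) → c ^ 3 * p0 = 0 →
      b ^ 3 * c + 2 * b * c ^ 2 = 4 * b ^ 2 + 3 * c := by
    intro b c v2 v3 v4 p0 p1 k1 k2 k3 k4 k5 k6 k7
    have l1 : p0 = 0 := (mul_eq_zero.1 k7).resolve_left (by positivity)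
    have l2 : p1 = 9 * v2 - 6 * c * v3 :=
      mul_left_cancel₀ (pow_pos k1 2).ne' (by linear_combination k6)
    refine mul_left_cancel₀ k2.ne' ?_
    linear_combination (c / 3) * k5 - (c / 3) * l1 + (b * c / 3) * l2 - 3 * c * k3 -
      4 * b ^ 2 * k4
  exact num (Int.cast_pos.1 hb) (Int.cast_pos.1 hc)
    (by exact_mod_cast key b c _ _ _ _ _ hc h2 a2 b2 a3 b4 b5)
    (by exact_mod_cast key c b _ _ _ _ _ hb h2 b2 a2 b3 a4 a5)

end Vale.Agent.P280Z.Pr
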