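import Vale.Agent.P280Z.Pr.Defs
import Vale.Agent.P280Z.Rh.Api

/-!
# P280Z, block Pr: the cases `(2, 3; 6)` and `(3, 3; 6)`
-/

open scoped Manifold ContDiff Topology Matrix
open Set Filter
open Vale.Agent.P272.K Vale.Agent.P285.H281.FD Vale.Agent.P281Z
open Vale.Agent.P280Z.Gm (Fa)
open Vale.Agent.P280Z.Rh

noncomputable section

namespace Vale.Agent.P280Z.Pr

namespace K336H

section alg
variable {A B : Type} [CommRing A] [Algebra ℝ A] [CommRing B] [Algebra ℝ B] {S : NS A B}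
  {t : ℕ → A}

theorem fa_cast {n r d y r' d' y' : ℕ} (h : FA S n r d y t) (e1 : r = r') (e2 : d = d')
    (e3 : y = y') : FA S n r' d' y' t := by
  subst e1 e2 e3
  exact h

theorem pl_cast {y y' : ℕ} (h : Pl S y t) (e : y = y') : Pl S y' t := by
  subst e
  exact h

theorem cm_cast {d d' y : ℕ} (h : Cm0 S d y t) (e : d' = d) : Cm0 S d' y t := by
  subst e
  exact h

end alg

variable {T : CT} {n : ℕ} {V : Mf n} {B : Bas T V} {i j : B.J}

theorem symm (h : Two B i j) : Two B j i :=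
  ⟨h.th, h.cls, h.ne.symm, fun k => (h.all k).symm, h.pos⟩

theorem compl (h : Two B i j) : ({j}ᶜ : Set B.J) = {i} := by
  ext k
  rw [mem_compl_iff, mem_singleton_iff, mem_singleton_iff]
  exact ⟨fun e => (h.all k).resolve_right e, fun e e' => h.ne (e.symm.trans e')⟩

theorem hS_one (j : B.J) : hS B {j} = B.H j := by
  unfold hS
  rw [Finset.sum_eq_single j ?_ fun e => (e (Finset.mem_univ _)).elim]
  · exact if_pos rfl
  · exact fun k _ e => if_neg e

theorem span (h : Two B i j) {a : T.H V} (ha : T.Dg V 1 a) :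
    a = (B.F i).dg a • B.H i + (B.F j).dg a • B.H j :=
  (B.span a ha).trans (Fintype.sum_eq_add i j h.ne fun k e => ((h.all k).elim e.1 e.2).elim)

theorem dgH (h : Two B i j) (k : B.J) : T.Dg V 1 (B.H k) := h.th.ok.po.deg (B.nn k)

theorem off (h : Two B i j) : ∀ k ∈ ({j} : Set B.J), (B.F k).dg (B.H i) = 0 := by
  rintro k rfl
  rw [B.dual, if_neg h.ne.symm]

theorem pos (h : Two B i j) (hp : Posj B) {d y : ℕ} (hd : (B.Q {j}).d = d)
    (hy : (B.Q {j}).y = y) : 0 < T.int V (B.H j ^ d * B.H i ^ y) := by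
  have k := (hp {j}).2
  rwa [compl h, hS_one, hS_one, hd, hy] at k

theorem un (h : Two B i j) : Un (nsm (B.F j)) (B.H j) := by
  refine ⟨dgH h j, ?_⟩
  have k := (B.F j).hdg _ (dgH h j)
  rw [B.dual, if_pos rfl, map_one] at k
  exact k

theorem iv (h : Two B i j) (k : ℕ) : Iv (nsm (B.F j)) k (B.H i ^ k) := by
  refine ⟨Ma.dg_pow h.th.ok (dgH h i) k, ?_⟩
  obtain ⟨b, -, e⟩ := (B.Q {j}).ex1 h.th.ok (dgH h i) (off h)
  exact ((B.Q {j}).s4 _).2 ⟨b ^ k, by rw [map_pow, ← e]⟩ j rfl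

theorem dg_t (h : Two B i j) : (B.F j).dg (tr T (B.Q {j}).sub.hol 1) = (B.F j).m + 2 := by
  rw [tr, map_sub, (B.F j).c1, (B.Q {j}).dg_pull h.th.ok rfl (h.th.ok.ch.deg _ _ 1), sub_zero]

theorem dg_td (hT : T.OK) {t : ℕ → T.H V} (h : ∀ k, T.Dg V k (t k)) : T.Dg V 4 (td4 t) := by
  have e : td4 t = (15 : ℝ) • t 1 ^ 4 - (30 : ℝ) • (t 1 ^ 2 * t 2) + (5 : ℝ) • (t 2 * t 2) +
      (2 : ℝ) • t 4 := by
    simp only [td4, Algebra.smul_def, map_ofNat]
    ring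
  have h1 : T.pr V 4 (t 1 ^ 4) = _ := Ma.dg_pow hT (h 1) 4
  have h2 : T.pr V 4 (t 1 ^ 2 * t 2) = _ :=
    hT.rg.dg_mul V 2 2 _ _ (Ma.dg_pow hT (h 1) 2) (h 2)
  have h3 : T.pr V 4 (t 2 * t 2) = _ := hT.rg.dg_mul V 2 2 _ _ (h 2) (h 2)
  have h4 : T.pr V 4 (t 4) = _ := h 4
  rw [CT.Dg, e, map_add, map_add, map_sub, map_smul, map_smul, map_smul, map_smul, h1, h2, h3, h4]

theorem td_zero (g : GRR4) (hT : Th T) {y : ℕ} (hy : y = 3) {V : Mf 6} {Y : Mf y}
    {π : V.X → Y.X} (h : Sub 6 y π) (hV : Fano 6 V.X) (hY : Fano y Y.X)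
    (hs : Function.Surjective π) (hc : ∀ b, IsConnected (π ⁻¹' {b}))
    (ht : ∀ k, T.Dg V k (tr T h.hol k)) {H : T.H V}
    (one : ∀ a, T.Dg Y 1 a → ∃ s : ℝ, T.pull h.hol a = s • H) (b : T.H Y) :
    T.int V (td4 (tr T h.hol) * T.pull h.hol b) = 0 := by
  subst hy
  obtain ⟨cY, kY⟩ := (fano_iff hT.ok Y).1 hY
  have kV : V.Kah := (hT.ok.po.kah V).2 ⟨_, ((fano_iff hT.ok V).1 hV).2⟩
  have vol := Ma.kc_vol hT.ok kY (Classical.arbitrary _)
  have k0 := g T hT h (fa_of hT.ok hV) (fa_of hT.ok hY) hc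
  have dP : T.Dg Y 1 (T.push π (td4 (tr T h.hol))) := by
    rw [CT.Dg, hT.ok.pu.deg h 3 rfl, dg_td hT.ok ht]
  have pr : ∀ b, T.int V (td4 (tr T h.hol) * T.pull h.hol b) =
      T.int Y (T.push π (td4 (tr T h.hol)) * b) := fun b => by
    rw [← hT.ok.pu.proj h, hT.ok.pu.int h]
  rw [pr] at k0 ⊢
  generalize T.push π (td4 (tr T h.hol)) = P at k0 dP ⊢
  obtain ⟨s, e1⟩ := one P dP
  obtain ⟨c, e2⟩ := one _ (dg_cX hT.ok Y)
  have c0 : c ≠ 0 := fun e => by
    rw [pull_inj hT.ok h (d := 3) rfl hs cY kV (b := cX T Y) (by rw [e2, e, zero_smul])] at vol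
    simp at vol
  have e3 : P = (s / c) • cX T Y := sub_eq_zero.1 (pull_inj hT.ok h (d := 3) rfl hs cY kV (by
    rw [map_sub, map_smul, e1, e2, smul_smul, div_mul_cancel₀ _ c0, sub_self]))
  rw [e3, smul_mul_assoc, ← pow_succ', map_smul, smul_eq_mul] at k0
  rw [e3, (mul_eq_zero.1 k0).resolve_right vol.ne', zero_smul, zero_mul, map_zero]

end K336H

open K336H

theorem k236_of (fax : FAX) (cm2 : CM2) (c236 : C236) (rd : RD) (pl2 : PL2) (posj : POSJ) :
    K236 := by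
  intro T V B i j h di dj
  have hT := h.th.ok
  have cV := ((fano_iff hT V).1 h.cls.1).1
  have fa := fax T hT B.F j (B.Q {j}) cV
  have hm : (B.F j).m = 1 := by
    have h1 := rd _ _ _ _ _ _ fa
    have h2 := h.pos j
    omega
  have yj : (B.Q {j}).y = 4 := by have := (B.Q {j}).dim; omega
  have yi : (B.Q {i}).y = 3 := by have := (B.Q {i}).dim; omega
  have fa' := fa_cast fa hm dj yj
  have pl := pl_cast (pl2 T h.th V B h.cls j hm dj).1 yj
  have p1 := pos h (posj T hT B cV) dj yj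
  have p2 := pos (symm h) (posj T hT B cV) di yi
  have x4 : B.H j ^ 4 = 0 := (B.Q {i}).pow_zero' hT (dgH h j) (off (symm h)) (by omega)
  have k1 : T.int V _ = 0 := c236 _ _ fa' pl _ (un h) x4
  have k2 : T.int V _ = 0 := cm2 _ _ _ _ fa' pl 3 _ rfl (iv h 3)
  have e := span h (fa.dt 1)
  rw [dg_t h, hm] at e
  generalize (B.F i).dg (tr T (B.Q {j}).sub.hol 1) = β at e
  generalize tr T (B.Q {j}).sub.hol 1 = t at e k1 k2
  have e1 : B.H j ^ 2 * (3 * B.H j - t) ^ 4 = β ^ 4 • (B.H j ^ 2 * B.H i ^ 4) := by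
    rw [e]
    simp only [Algebra.smul_def, map_add, map_pow, map_ofNat, Nat.cast_one, map_one]
    ring
  rw [e1, map_smul, smul_eq_mul] at k1
  obtain rfl : β = 0 := pow_eq_zero_iff (by norm_num) |>.1 ((mul_eq_zero.1 k1).resolve_right p1.ne')
  have e2 : t ^ (2 + 1) * B.H i ^ 3 = (27 : ℝ) • (B.H i ^ 3 * B.H j ^ 3) := by
    rw [e]
    simp only [Algebra.smul_def, map_add, map_ofNat, Nat.cast_one, map_one, map_zero]
    ring
  rw [e2, map_smul, smul_eq_mul] at k2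
  linarith

theorem k336_of (fax : FAX) (rd : RD) (cm3 : CM3) (cmq : CMQ) (g : GRR4) : K336 := by
  intro T V B i j h _ dj
  have hT := h.th.ok
  have cV := ((fano_iff hT V).1 h.cls.1).1
  have fa := fax T hT B.F j (B.Q {j}) cV
  have yj : (B.Q {j}).y = 3 := by have := (B.Q {j}).dim; omega
  have hm : (B.F j).m = 1 ∨ (B.F j).m = 2 := by
    have h1 := rd _ _ _ _ _ _ fa
    have h2 := h.pos j
    omega
  refine cm_cast ?_ dj
  rcases hm with hm | hm
  · intro k z hk hz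
    refine cmq _ _ _ _ (fa_cast fa hm dj rfl) k z hk hz ?_
    obtain ⟨b, rfl⟩ := ((B.Q {j}).s4 z).1 (by rintro _ rfl; exact hz.2)
    refine td_zero g h.th yj (B.Q {j}).sub h.cls.1 (B.cls {j}).1 (B.Q {j}).onto (B.Q {j}).fib
      fa.dt (H := B.H i)
      (fun a ha => ⟨(B.F i).dg (T.pull (B.Q {j}).sub.hol a), ?_⟩) b
    have e := span h (Ma.dg_pull hT (B.Q {j}).sub.hol ha)
    rwa [(B.Q {j}).dg_pull hT rfl ha, zero_smul, add_zero] at e
  · exact cm3 _ _ _ _ (fa_cast fa hm dj rfl)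

end Vale.Agent.P280Z.Pr
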