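import Vale.Agent.P280Z.Pr.Defs
import Vale.Agent.P280Z.Rh.Fanq
import Vale.Agent.P280Z.Rh.Dgf
import Vale.Agent.P280Z.Rh.Int

/-!
# P280Z, block Pr, row NEG: line bundles of negative degree on the curves of a family
-/

open scoped Manifold ContDiff Topology Matrix
open Set Filter
open Vale.Agent.P272.K Vale.Agent.P285.H281.FD Vale.Agent.P281Z
open Vale.Agent.P277.HD (pull)
open Vale.Agent.P280Z.Ld (h0 Γ)
open Vale.Agent.P280Z.Rh

noncomputable section

namespace Vale.Agent.P280Z.Pr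

theorem neg : NEG := by
  intro T hT n V F M hM
  have key : ∀ {C : Mf 1} {i : C.X → F.U.X} (hi : HolM 1 (F.k + 1) i),
      T.c1 C (pull (fun z => F.e (i z)) M) = T.pull hi (T.pull F.se.hol (T.c1 V M)) := fun hi => by
    rw [hT.c1.pull (F.se.hol.comp hi) _ hM,
      hT.rg.pull_comp hi F.se.hol (F.se.hol.comp hi) fun _ => rfl]
  refine ⟨?_, fun h => ?_⟩
  · obtain ⟨u⟩ := F.cU.toNonempty
    obtain ⟨C, i, hi, -, -, -, -, h3⟩ := dgf T hT F (F.p u)
    obtain ⟨A, hA, hP⟩ := F.prj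
    obtain ⟨z, hz⟩ := int_ T hT C (fun _ => pull (fun z => F.e (i z)) M)
      ⟨_, hi.hol.lb hA, IntH.pos_pull hT hi hA hP⟩ fun _ => (F.se.hol.comp hi.hol).lb hM
    refine ⟨z, ?_⟩
    rw [← hz, Fin.prod_univ_one, key hi.hol, h3 _ (hT.c1.deg V M)]
  · have hb : Γ n M = ⊥ := by
      refine (Submodule.eq_bot_iff _).2 fun s hs => funext fun a => funext fun x => ?_
      by_contra h0
      have ha : x ∈ M.U a := by
        by_contra k
        exact h0 (hs.2 a x k)
      obtain ⟨u, rfl⟩ := (F.fe x).nonempty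
      obtain ⟨C, i, hi, hC, -, -, -, h3⟩ := dgf T hT F (F.p u)
      obtain ⟨z, rfl⟩ := hi.ex (y := u) rfl
      have hg := F.se.hol.comp hi.hol
      have k := (hT.eff C _ _ 0 Fin.elim0 rfl (hg.lb hM) (hg.sec hs.1)
        (Jac.dense_nz (hg.lb hM) (hg.sec hs.1) (a := a) (x := z) ha h0) fun j => j.elim0).1
      rw [Fin.prod_univ_zero, mul_one, key hi.hol, h3 _ (hT.c1.deg V M)] at k
      exact absurd h (not_lt.2 k)
    rw [h0, hb, finrank_bot]

end Vale.Agent.P280Z.Pr
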