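import Vale.Agent.P280Z.Pr.Defs
import Vale.Agent.P280Z.Rh.Api

/-!
# P280Z, block Pr: rows POSJ and DIMJ
-/

open Set
open Vale.Agent.P272.K Vale.Agent.P285.H281.FD Vale.Agent.P281Z Vale.Agent.P280Z.Ma
open Vale.Agent.P280Z.Rh

noncomputable section

namespace Vale.Agent.P280Z.Pr

namespace PosjH

variable {T : CT} {n : ℕ} {V : Mf n}

theorem dg_H (hT : T.OK) (B : Bas T V) (j : B.J) : T.Dg V 1 (B.H j) := hT.po.deg (B.nn j)

theorem dg_hS (hT : T.OK) (B : Bas T V) (S : Set B.J) : T.Dg V 1 (hS B S) := by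
  rw [CT.Dg, hS, map_sum]
  refine Finset.sum_congr rfl fun i _ => ?_
  split_ifs
  exacts [dg_H hT B i, map_zero _]

theorem deg_in (B : Bas T V) {S : Set B.J} {i : B.J} (h : i ∈ S) : (B.F i).dg (hS B S) = 1 := by
  rw [hS, map_sum, Finset.sum_eq_single i (fun j _ k => ?_) fun k => absurd (Finset.mem_univ i) k,
    if_pos h, B.dual, if_pos rfl]
  split_ifs
  exacts [(B.dual i j).trans (if_neg k.symm), map_zero _]

theorem deg_out (B : Bas T V) {S : Set B.J} {i : B.J} (h : i ∉ S) : (B.F i).dg (hS B S) = 0 := by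
  rw [hS, map_sum]
  refine Finset.sum_eq_zero fun j _ => ?_
  split_ifs with k
  exacts [(B.dual i j).trans (if_neg fun e : i = j => h (e ▸ k)), map_zero _]

theorem dg_add {a b : T.H V} {k : ℕ} (ha : T.Dg V k a) (hb : T.Dg V k b) : T.Dg V k (a + b) :=
  (map_add _ _ _).trans (congrArg₂ _ ha hb)

variable {J : Type} {F : J → Fm T V} {S : Set J} (Q : Qt F S)

theorem vol (hT : T.OK) (hc : ConnectedSpace V.X) {κ : T.H V} (h : T.Kc V κ) {w : T.H Q.Y}
    (hw : T.Kc Q.Y w) : 0 < T.int V (κ ^ Q.d * T.pull Q.sub.hol w ^ Q.y) := by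
  obtain ⟨D, h1, h2⟩ := push_vol hT Q.sub Q.dim Q.onto (Q.conn hc) h
  obtain ⟨b⟩ := (Q.conn hc).toNonempty
  rw [← map_pow, ← hT.pu.int Q.sub, hT.pu.proj Q.sub, h2, ← Algebra.smul_def, map_smul]
  exact mul_pos h1 (kc_vol hT hw b)

theorem two (hT : T.OK) {a b : T.H V} (ha : T.Dg V 1 a) (hb : T.Dg V 1 b)
    (h : ∀ j ∈ S, (F j).dg a = 0) (h' : ∀ j ∈ S, (F j).dg b = 0) {p q : ℕ} (k : Q.y < p + q) :
    a ^ p * b ^ q = 0 := by
  obtain ⟨a, h1, rfl⟩ := Q.ex1 hT ha h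
  obtain ⟨b, h2, rfl⟩ := Q.ex1 hT hb h'
  rw [← map_pow, ← map_pow, ← map_mul,
    ← hT.rg.dg_mul _ _ _ _ _ (dg_pow hT h1 p) (dg_pow hT h2 q), hT.rg.pr_zero _ _ _ k, map_zero]

end PosjH

open PosjH

/-- row POSJ -/
theorem posj : POSJ := by
  intro T hT n V B hc S
  have k0 : ∀ i ∈ S, (B.F i).dg (hS B Sᶜ) = 0 := fun i hi => deg_out B fun k => k hi
  obtain ⟨w, h1, h2⟩ := (B.Q S).ex1 hT (dg_hS hT B Sᶜ) k0
  have hw : T.Kc _ w := B.kcY S w h1 fun j hj => by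
    rw [← h2, deg_in B (S := Sᶜ) hj]
    exact one_pos
  refine ⟨⟨w, hw, h2⟩, ?_⟩
  have hk : T.Kc V (hS B S + hS B Sᶜ) := B.kc _ (dg_add (dg_hS hT B _) (dg_hS hT B _)) fun j => by
    by_cases hj : j ∈ S
    · rw [map_add, deg_in B hj, k0 j hj, add_zero]
      exact one_pos
    · rw [map_add, deg_out B hj, deg_in B (S := Sᶜ) hj, zero_add]
      exact one_pos
  have h := vol (B.Q S) hT hc hk hw
  obtain ⟨c, e⟩ := sub_dvd_pow_sub_pow (hS B S + hS B Sᶜ) (hS B S) (B.Q S).d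
  rwa [← h2, eq_add_of_sub_eq e, add_sub_cancel_left, add_mul, mul_right_comm, ← pow_succ',
    (B.Q S).pow_zero' hT (dg_hS hT B _) k0 (Nat.lt_succ_self _), zero_mul, zero_add] at h

/-- row DIMJ -/
theorem dimj_of (hP : POSJ) : DIMJ := by
  intro T hT n V B hc S j hj
  by_contra hn
  obtain ⟨⟨w, hw, h2⟩, -⟩ := hP T hT B hc (insert j S)
  have hk : T.Kc V (B.H j + hS B {j}ᶜ) := B.kc _ (dg_add (dg_H hT B _) (dg_hS hT B _)) fun i => by
    by_cases hi : i = j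
    · rw [map_add, B.dual, if_pos hi, deg_out B (S := {j}ᶜ) fun k => k hi, add_zero]
      exact one_pos
    · rw [map_add, B.dual, if_neg hi, deg_in B (S := {j}ᶜ) hi, zero_add]
      exact one_pos
  have h := vol (B.Q (insert j S)) hT hc hk hw
  rw [← h2, add_pow, Finset.sum_mul, Finset.sum_eq_zero fun a ha => ?_, map_zero] at h
  · exact lt_irrefl _ h
  have d1 := (B.Q (insert j S)).dim
  have d2 := (B.Q {j}).dim
  have d3 := Finset.mem_range.1 ha
  by_cases k : (B.Q S).y < a + (B.Q (insert j S)).y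
  · rw [mul_right_comm, mul_right_comm (B.H j ^ a), two (B.Q S) hT (dg_H hT B j)
      (dg_hS hT B (insert j S)ᶜ) (fun i hi => (B.dual i j).trans (if_neg fun e : i = j => hj (e ▸ hi)))
      (fun i hi => deg_out B fun e => e (Or.inr hi)) k, zero_mul, zero_mul]
  · rw [mul_right_comm, mul_assoc (B.H j ^ a), two (B.Q {j}) hT (dg_hS hT B {j}ᶜ)
      (dg_hS hT B (insert j S)ᶜ) (p := (B.Q (insert j S)).d - a) (q := (B.Q (insert j S)).y)
      (fun i hi => deg_out B fun e => e hi) (fun i hi => deg_out B fun e => e (Or.inl hi))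
      (by omega), mul_zero, zero_mul]

end Vale.Agent.P280Z.Pr
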