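import Vale.Agent.P280Z.Pr.Defs
import Vale.Agent.P280Z.Po.Defs
import Vale.Agent.P280Z.Gm.Fibi
import Vale.Agent.P280Z.Ma.Nsx
import Vale.Agent.P280Z.Sq.Api
import Vale.Agent.P281Z.Mf.Sub

/-!
# P280Z, block Pr: products
-/

open scoped Manifold ContDiff Topology Matrix
open Set Filter
open Vale.Agent.P272.K Vale.Agent.P285.H281.FD Vale.Agent.P281Z
open Vale.Agent.P280Z.Ma (dg_pull pull_const)
open Vale.Agent.P280Z.Sq (Df_comp imm_Df emb_rng)

noncomputable section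

namespace Vale.Agent.P280Z.Pr

theorem prod_of : ADJF → JAC → Po.ETG → PROD := by
  intro hA hJ hE T hT n y m V Y M π μ h k hn hV hM hc ⟨c, c1, c2⟩ ⟨a, o, a1, a2⟩ gY gM
  refine hE V Y M π μ (by omega) h.hol k.hol (fun x v h1 h2 => ?_) gY gM
  obtain ⟨⟨W, i, hi⟩, hF⟩ := Gm.fibi T hT μ (μ x) hn k
  have hf : HolM y y fun w => π (i w) := h.hol.comp hi.hol
  have hp : ∀ u, T.pull hf u = T.pull hi.hol (T.pull h.hol u) :=
    hT.rg.pull_comp hi.hol h.hol hf fun _ => rfl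
  have e1 : T.pull hi.hol (T.pull k.hol c) = 0 := by
    rw [← hT.rg.pull_comp hi.hol k.hol (holM_const (μ x)) fun w => (hi.fib w).symm]
    exact pull_const hT (μ x) (j := 0) c1
  have e2 : T.ps W (VB.tan y W.X) 1 = T.pull hf (T.ps Y (VB.tan y Y.X) 1) := by
    rw [(hA T hT k hi hn 0).1, hp, ← sub_eq_zero, ← map_sub, ← e1, ← c2]
    rfl
  have e3 : T.Dg M 0 (T.push μ (T.pull h.hol a)) := by
    unfold CT.Dg
    rw [hT.pu.deg k y hn 0, zero_add, dg_pull hT h.hol a1]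
  obtain ⟨γ, hγ⟩ := hT.rg.h0 M inferInstance _ e3
  have e4 : γ ≠ 0 := by
    rintro rfl
    refine a2 ?_
    rw [← hT.pu.int k, hT.pu.proj k, hγ, map_zero, zero_mul, map_zero]
  have e5 := hJ T hT hf (hi.conn.2 (hc _)) (hi.kah hV) e2 ⟨a, by
    rw [hp, hF W i hi _ γ hγ]
    exact e4⟩
  obtain ⟨w, rfl⟩ := hi.ex (mem_singleton (μ x))
  obtain ⟨u, rfl⟩ : v ∈ LinearMap.range (Df y n i w) := by
    rw [emb_rng hi k hn]
    exact h2
  rw [← Df_comp (h.hol.at _) (hi.hol.at w)] at h1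
  rw [(imm_Df (hf.at w)).1 (e5 w) u h1, map_zero]

end Vale.Agent.P280Z.Pr
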