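import Vale.Agent.P280Z.Pr.Defs

/-!
# P280Z, block Pr: the list of the cases
-/

open Set
open Vale.Agent.P272.K Vale.Agent.P285.H281.FD Vale.Agent.P281Z
open Vale.Agent.P280Z.Rh

noncomputable section

namespace Vale.Agent.P280Z.Pr

theorem ptwo_of (fax : FAX) (rd : RD) (dimj : DIMJ) (cm2 : CM2) (pl2 : PL2) (prj : PRJ)
    (k225 : K225) (k236 : K236) (k226 : K226) (k336 : K336) : PTWO := by
  intro T hT n V B hn ih cls nt pos
  have hc : ConnectedSpace V.X := cls.1.1
  have fa := fun j => fax T hT.ok B.F j (B.Q {j}) hc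
  have hd : ∀ j, (B.F j).m + 1 ≤ (B.Q {j}).d := fun j => rd _ _ _ _ _ _ (fa j)
  have d2 : ∀ j, 2 ≤ (B.Q {j}).d := fun j => by have := hd j; have := pos j; omega
  have D := dimj T hT.ok B hc
  have cm : ∀ j, (B.Q {j}).d = 2 →
      Cm0 (nsm (B.F j)) (B.Q {j}).d (B.Q {j}).y (tr T (B.Q {j}).sub.hol) := by
    intro j h
    have hm : (B.F j).m = 1 := by have := hd j; have := pos j; omega
    have f := fa j
    rw [hm, h] at f
    rw [h]
    exact cm2 _ _ _ _ f (pl2 T hT V B cls j hm h).1
  have two : ∀ i j, i ≠ j → (∀ k, k = i ∨ k = j) → (B.Q {j}).d ≤ (B.Q {i}).d → Gp.Gen n V.X := by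
    intro i j ne all le
    have tw : Two B i j := ⟨hT, cls, ne, all, pos⟩
    have e : ({j}ᶜ : Set B.J) = {i} := by
      ext k
      rcases all k with rfl | rfl <;> simp [ne, ne.symm]
    have h1 := D {i} j (by simp [ne.symm])
    have h2 := (B.Q {i}).dim
    have h3 := d2 j
    by_cases h4 : (B.Q {j}).d = (B.Q {i}).y
    · refine prj T hT V B ih cls i j ne (by rw [e, h4]) ?_
      by_cases h5 : (B.Q {j}).d = 2
      · exact cm j h5
      · obtain rfl : n = 6 := by omega
        exact k336 T V B i j tw (by omega) (by omega)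
    · by_cases h5 : n = 5
      · subst h5
        exact k225 T V B i j tw (by omega) (by omega)
      · obtain rfl : n = 6 := by omega
        by_cases h6 : (B.Q {i}).d = 2
        · exact (k226 T V B i j tw h6 (by omega)).elim
        · exact (k236 T V B i j tw (by omega) (by omega)).elim
  obtain ⟨i, j, ne⟩ := nt
  by_cases all : ∀ k, k = i ∨ k = j
  · rcases le_total (B.Q {j}).d (B.Q {i}).d with h | h
    · exact two i j ne all h
    · exact two j i ne.symm (fun k => (all k).symm) h
  push Not at all
  obtain ⟨k, ki, kj⟩ := all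
  have h0 := (B.Q ∅).dim
  have h1 := D ∅ i (notMem_empty i)
  have h2 := D (insert i ∅) k (by simp [ki])
  have h3 := D (insert k (insert i ∅)) j (by simp [kj.symm, ne.symm])
  have := d2 i
  have := d2 j
  have := d2 k
  have e : ({j}ᶜ : Set B.J) = insert k (insert i ∅) := by
    ext l
    constructor
    · intro hl
      by_contra hl'
      have h4 := D (insert j (insert k (insert i ∅))) l (fun h => h.elim hl hl')
      have := d2 l
      omega
    · rintro (rfl | rfl | h)
      · exact kj
      · exact ne
      · exact h.elim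
  exact prj T hT V B ih cls i j ne (by rw [e]; omega) (cm j (by omega))

end Vale.Agent.P280Z.Pr
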