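import Vale.Agent.P280Z.Pr.Adjf
import Vale.Agent.P280Z.Pr.D2
import Vale.Agent.P280Z.Pr.D3
import Vale.Agent.P280Z.Pr.Fax
import Vale.Agent.P280Z.Pr.Fin5
import Vale.Agent.P280Z.Pr.Grr4
import Vale.Agent.P280Z.Pr.H0p
import Vale.Agent.P280Z.Pr.Hilb
import Vale.Agent.P280Z.Pr.Hr6
import Vale.Agent.P280Z.Pr.Inv5
import Vale.Agent.P280Z.Pr.Jac
import Vale.Agent.P280Z.Pr.K225
import Vale.Agent.P280Z.Pr.K226
import Vale.Agent.P280Z.Pr.K336
import Vale.Agent.P280Z.Pr.Lb5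
import Vale.Agent.P280Z.Pr.Lift
import Vale.Agent.P280Z.Pr.Neg
import Vale.Agent.P280Z.Pr.Posj
import Vale.Agent.P280Z.Pr.Prj
import Vale.Agent.P280Z.Pr.Prod
import Vale.Agent.P280Z.Pr.Rel5
import Vale.Agent.P280Z.Pr.Top
import Vale.Agent.P280Z.Po.Desc
import Vale.Agent.P280Z.Po.Etg

/-!
# P280Z, block Pr: the assembly of the rows
-/

namespace Vale.Agent.P280Z.Pr

theorem ptwo : Rh.PTWO :=
  have ad := adjf
  have pl := pl2_of fax g2 (g3x_of ad)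
  ptwo_of fax rd (dimj_of posj) cm2 pl (prj_of fax alx posj rd (prod_of ad jac Po.etg))
    (k225_of fax cm2 rd pl posj neg
      (gen5_of hilb lb5 rel5 inv5 (sep5_of ad) (fin5_of lift)))
    (k236_of fax cm2 c236 rd pl posj) (k226_of fax s226 rd pl posj hr6 neg cm2)
    (k336_of fax rd cm3 cmq (grr4_of (h0p_of Po.desc)))

end Vale.Agent.P280Z.Pr
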