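import Vale.Agent.P280Z.Pr.Defs
import Vale.Agent.P280Z.Qs.Gen

/-!
# P280Z, block Pr: rows RD and ALX
-/

noncomputable section

namespace Vale.Agent.P280Z.Pr

namespace RdH
open Al Qs

variable {A B : Type} [CommRing A] [Algebra ℝ A] [CommRing B] [Algebra ℝ B] {S : NS A B} {n r : ℕ}

theorem dg_add {G : GA A} {k : ℕ} {a b : A} (ha : G.Dg k a) (hb : G.Dg k b) : G.Dg k (a + b) := by
  rw [GA.Dg, map_add, ha, hb]

theorem iv_mul (h : S.OK0 n r) {j k : ℕ} {a b : A} (ha : Iv S j a) (hb : Iv S k b) :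
    Iv S (j + k) (a * b) :=
  ⟨h.gx.dg_mul _ _ _ _ ha.1 hb.1, by rw [map_mul, LeiH.ker h _ _ ha.2, hb.2, mul_zero]⟩

theorem Tpow (h : S.OK0 n r) (k : ℕ) :
    ∃ b, S.GU.Dg k b ∧ S.T (S.hh ^ (k + 2)) = (-S.τ) ^ (k + 1) + b * S.hh := by
  have dn : S.GU.Dg 1 (-S.τ) := by rw [GA.Dg, map_neg, h.dτ]
  induction k with
  | zero =>
    refine ⟨1 + 1, dg_add h.gu.dg_one h.gu.dg_one, ?_⟩
    rw [zero_add, sq, LeiH.mul h, LeiH.th h]
    ring
  | succ k ih =>
    obtain ⟨b, h1, h2⟩ := ih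
    refine ⟨(-S.τ) ^ (k + 1) + b * S.hc + S.hh ^ (k + 1), dg_add (dg_add (Elr.dg_pow h.gu dn _)
      (h.gu.dg_mul _ _ _ _ h1 (dc h))) (Elr.dg_pow h.gu (dh h) _), ?_⟩
    rw [show k + 1 + 2 = k + 2 + 1 from rfl, pow_succ, LeiH.mul h, LeiH.th h, h2, NS.hc]
    ring

theorem elT (h : S.OK0 n r) : S.el (S.T (S.hh ^ (r + 1))) = S.el ((-S.τ) ^ r) := by
  cases r with
  | zero => rw [zero_add, pow_one, LeiH.th h, pow_zero]
  | succ k =>
    obtain ⟨b, h1, h2⟩ := Tpow h k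
    rw [h2, map_add, NS.hh, h.proj, lo h k.lt_succ_self h1, zero_mul, add_zero]

theorem elT0 (h : S.OK0 n r) {d : ℕ} (hd : d ≤ r) : S.el (S.T (S.hh ^ d)) = 0 := by
  cases d with
  | zero => rw [pow_zero, LeiH.one h, map_zero]
  | succ k => exact lo h hd ((lei S n r h).dT k _ (Elr.dg_pow h.gu (dh h) _))

theorem pow_sub {X β b : A} (h : β * (β * b) = 0) (k : ℕ) :
    (X - β) ^ (k + 1) * b = X ^ (k + 1) * b - ((k : ℝ) + 1) • (X ^ k * (β * b)) := by
  induction k with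
  | zero => simp [sub_mul]
  | succ k ih =>
    rw [pow_succ', mul_assoc, ih]
    push_cast
    simp only [Algebra.smul_def, map_add, map_one]
    linear_combination ((algebraMap ℝ A k + 1) * X ^ k) * h

omit [Algebra ℝ A] in
theorem pow_eq {x u z : A} (h : (x - u) * z = 0) (k : ℕ) : x ^ k * z = u ^ k * z := by
  induction k with
  | zero => rw [pow_zero, pow_zero]
  | succ k ih => linear_combination x * ih + u ^ k * h

end RdH

open RdH Al Qs in
theorem rd : RD := by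
  intro A B _ _ _ _ S t n r d y F
  by_contra hd
  have h := F.ok
  obtain ⟨o, ho, -, h0⟩ := F.top
  obtain ⟨D, D0, hD⟩ := h.D
  have e := h.T_int (S.hh ^ (r + 1)) (S.es o * S.hh ^ d)
  rw [LeiH.ker h _ _ ho.2, NS.hh, ← map_pow, ← map_pow, ← map_mul, ← mul_assoc, ← map_mul,
    mul_comm _ (S.T _), ← h.el_int, ← h.el_int, h.proj, h.proj, map_pow S.es, map_pow S.es] at e
  rw [show S.es S.η = S.hh from rfl, elT h, elT0 h (by omega), hD, zero_mul, map_zero,
    ← Algebra.smul_def, map_smul, mul_comm] at e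
  exact (mul_pos D0 h0).ne' e

open RdH Al Qs in
theorem alx : ALX := by
  intro A B _ _ _ _ S t n r d y F hc x hx h0
  have h := F.ok
  have hβ : Iv S 1 (((r : ℝ) + 2) • x - t 1) := ⟨by rw [GA.Dg, map_sub, map_smul, hx.1, F.dt], by
    rw [map_sub, map_smul, map_sub, map_smul, hx.2, F.c1, Algebra.smul_def, map_add, map_natCast,
      map_ofNat, mul_one, sub_self]⟩
  have hγ : Iv S 1 (x - S.η) := ⟨by rw [GA.Dg, map_sub, hx.1, h.dη], by
    rw [map_sub, map_sub, hx.2, h.Tη, sub_self]⟩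
  refine (sub_eq_zero.1 (F.pd 1 _ hβ fun j b hb => ?_)).symm
  have hz := iv_mul h hβ hb
  by_cases hj : j + 1 = y
  · have e := hc j b hj hb
    rw [← sub_sub_cancel (((r : ℝ) + 2) • x) (t 1),
      pow_sub (F.van _ _ (by omega) (iv_mul h hβ hz)), smul_pow, h0, smul_zero, zero_mul, zero_sub,
      smul_pow, smul_mul_assoc, pow_eq (F.van _ _ (by omega) (iv_mul h hγ hz)), map_neg, map_smul,
      map_smul, neg_eq_zero, smul_eq_mul, smul_eq_mul] at e
    exact ((mul_eq_zero.1 ((mul_eq_zero.1 e).resolve_left (by positivity))).resolve_left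
      (by positivity))
  · exact int_dg h.gx (h.gx.dg_mul _ _ _ _ (Elr.dg_pow h.gx h.dη d) hz.1) (by have := F.dim; omega)

end Vale.Agent.P280Z.Pr
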