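import Vale.Agent.P280Z.Pr.Rd
import Vale.Agent.P280Z.Ma.Rel

/-!
# P280Z, block Pr: tools for the computations in the ring of the universal curve
-/

open Finset
open Vale.Agent.P231.ChW (NewtonRec)

noncomputable section

namespace Vale.Agent.P280Z.Pr.AlgH
open Al Al.Cn Qs RdH

variable {A B : Type} [CommRing A] [Algebra ℝ A] [CommRing B] [Algebra ℝ B] {S : NS A B}
  {n r d y j k : ℕ} {t : ℕ → A} {o v z m : A} {b : B}

/-- one half of `τ` -/
def u (S : NS A B) : B := (2 : ℝ)⁻¹ • S.τ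

theorem τu : S.τ = 2 * u S := by rw [u]; algebra

theorem Tu (h : S.OK0 n r) : S.T (u S) = 1 := by rw [u, map_smul, h.Tτ]; algebra

theorem Tm (h : S.OK0 n r) (x y : B) :
    S.T (x * y) = S.T x * (y - 2 * u S * S.T y) + x * S.T y := by
  rw [LeiH.mul h, τu]; ring

theorem Ta (h : S.OK0 n r) (c : ℝ) : S.T (algebraMap ℝ B c) = 0 := by
  rw [Algebra.algebraMap_eq_smul_one, map_smul, LeiH.one h, smul_zero]

/-- the rules of the calculus -/
theorem tc (h : S.OK0 n r) :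
    (∀ x y, S.T (x * y) = S.T x * (y - 2 * u S * S.T y) + x * S.T y) ∧
    (∀ x k, S.T (x ^ (k + 1)) = S.T (x ^ k) * (x - 2 * u S * S.T x) + x ^ k * S.T x) ∧
    (∀ x, S.T (x ^ 0) = 0) ∧ S.T (u S) = 1 ∧ S.T 1 = 0 ∧ (∀ c, S.T (algebraMap ℝ B c) = 0) ∧
    (∀ (k : ℕ) [k.AtLeastTwo], S.T ofNat(k) = 0) ∧ (∀ x y, S.T (x + y) = S.T x + S.T y) ∧
    (∀ x y, S.T (x - y) = S.T x - S.T y) ∧ (∀ x, S.T (-x) = -S.T x) ∧
    (∀ x y, S.es (x * y) = S.es x * S.es y) ∧ (∀ x k, S.es (x ^ k) = S.es x ^ k) ∧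
    (∀ x y, S.es (x + y) = S.es x + S.es y) ∧ (∀ x y, S.es (x - y) = S.es x - S.es y) ∧
    (∀ (k : ℕ) [k.AtLeastTwo], S.es ofNat(k) = ofNat(k)) ∧
    (∀ c x, S.es (c • x) = algebraMap ℝ B c * S.es x) ∧ (∀ x : B, 0 * x = 0) ∧
    (∀ x : B, x * 0 = 0) ∧ (∀ x : B, 0 + x = x) ∧ (∀ x : B, x + 0 = x) ∧ (∀ x : B, x - 0 = x) ∧
    (∀ x : B, x * 1 = x) ∧ ∀ x : B, 1 * x = x :=
  ⟨Tm h, fun x k => by rw [pow_succ, Tm h], fun x => by rw [pow_zero, LeiH.one h], Tu h,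
    LeiH.one h, Ta h, fun k _ => by rw [← map_ofNat (algebraMap ℝ B), Ta h], map_add _, map_sub _,
    map_neg _, map_mul _, map_pow _, map_add _, map_sub _, fun k _ => map_ofNat _ k,
    fun c x => by rw [map_smul, Algebra.smul_def], zero_mul, mul_zero, zero_add, add_zero, sub_zero,
    mul_one, one_mul⟩

theorem In (l : A →ₗ[ℝ] ℝ) (k : ℕ) [k.AtLeastTwo] (x : A) : l (ofNat(k) * x) = ofNat(k) * l x := by
  rw [← map_ofNat (algebraMap ℝ A), ← Algebra.smul_def, map_smul, smul_eq_mul]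

theorem can (N : ℕ) [N.AtLeastTwo] (e : ofNat(N) * b = 0) : b = 0 := by
  rw [← map_ofNat (algebraMap ℝ B), ← Algebra.smul_def] at e
  exact (smul_eq_zero.1 e).resolve_left (NeZero.ne _)

theorem dec (h : S.OK0 n r) {x c : B} (e : S.T x = c) : ∃ s, S.T s = 0 ∧ x = c * u S + s :=
  ⟨x - c * u S, by rw [map_sub, LeiH.ker h c _ (e ▸ LeiH.TT h x), Tu h, mul_one, e, sub_self],
    by ring⟩

/-- the classes of integral zero -/
def Z (S : NS A B) : Submodule ℝ B := LinearMap.ker S.GU.int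

theorem iu (h : S.OK0 n r) : ∃ c : ℝ, c ≠ 0 ∧ ∀ v, S.GU.int (u S ^ r * S.es v) = c * S.GX.int v := by
  obtain ⟨D, D0, hD⟩ := h.D
  refine ⟨(-2)⁻¹ ^ r * D, by positivity, fun v => ?_⟩
  rw [show u S = (-2 : ℝ)⁻¹ • (-S.τ) by rw [u, inv_neg, neg_smul_neg], smul_pow, smul_mul_assoc,
    map_smul, ← h.el_int, h.proj, hD, ← Algebra.smul_def, map_smul, smul_eq_mul, smul_eq_mul,
    mul_assoc]

theorem red (h : S.OK0 n r) (c : ℝ) (v : A) (hb : b ∈ Z S)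
    (e : S.T (algebraMap ℝ B c * (u S ^ r * S.es v)) = S.T b) : c * S.GX.int v = 0 := by
  obtain ⟨c', h1, h2⟩ := iu h
  have k : S.GU.int (algebraMap ℝ B c * (u S ^ r * S.es v)) = 0 := by
    rw [LeiH.int h, e, ← LeiH.int h]; exact hb
  rw [← Algebra.smul_def, map_smul, h2, smul_eq_mul, mul_left_comm] at k
  exact (mul_eq_zero.1 k).resolve_left h1

theorem redN (h : S.OK0 n r) (N : ℕ) [N.AtLeastTwo] (hb : b ∈ Z S)
    (e : S.T (ofNat(N) * (u S ^ r * S.es v)) = S.T b) : S.GX.int v = 0 :=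
  (mul_eq_zero.1 (red h ofNat(N) v hb (by rwa [map_ofNat]))).resolve_left (NeZero.ne _)

theorem zo (hv : v = 0) (c : B) : c * S.es v ∈ Z S := by
  rw [hv, map_zero, mul_zero]; exact zero_mem _

theorem zv (h : S.OK0 n r) (hv : S.GX.Dg k v) (hk : n < k) (c : B) : c * S.es v ∈ Z S :=
  zo (dg_hi h.gx hv hk) c

theorem zi (h : S.OK0 n r) (hv : S.GX.int v = 0) (N : ℕ) [N.AtLeastTwo] :
    ofNat(N) * (u S ^ r * S.es v) ∈ Z S := by
  obtain ⟨c, -, h2⟩ := iu h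
  show S.GU.int _ = 0
  rw [In, h2, hv, mul_zero, mul_zero]

theorem z0 (h : S.OK0 n r) (hv : S.GX.Dg k v) (hk : k = n) (e : S.GX.int v = 0) : v = 0 :=
  pd_dg h.gx (k := 0) hv hk fun b hb => by
    obtain ⟨c, rfl⟩ := h.h0 b hb
    rw [mul_comm, ← Algebra.smul_def, map_smul, e, smul_zero]

theorem two (h : S.OK0 n r) {x : B} (e : x * S.es o = 0) (ho : Iv S y o) :
    S.T x * S.es o = 0 := by
  rw [mul_comm, ← LeiH.ker h _ _ ho.2, mul_comm, e, map_zero]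

theorem dpr {G : GA A} (h : G.OK n) (i : ℕ) (a : A) : G.Dg i (G.pr i a) :=
  (h.pr_pr i i a).trans (if_pos rfl)

theorem prm {G : GA A} (h : G.OK n) (i : ℕ) (a : A) (hv : G.Dg k v) :
    G.pr (i + k) (a * v) = G.pr i a * v := by
  conv_lhs => rw [← h.pr_sum a, sum_mul, map_sum]
  rw [sum_eq_single i (fun l _ hl => by
    rw [← h.dg_mul _ _ _ _ (dpr h l a) hv, h.pr_pr, if_neg (by omega)]) fun hi => by
      rw [h.pr_zero i a (by simpa using hi), zero_mul, map_zero]]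
  exact h.dg_mul _ _ _ _ (dpr h i a) hv

/-- the generator of the invariant classes of top degree -/
def Tp (S : NS A B) (d y : ℕ) (o : A) : Prop :=
  Iv S y o ∧ (∀ a, Iv S y a → ∃ c : ℝ, a = c • o) ∧ 0 < S.GX.int (S.η ^ d * o)

theorem d1 (F : FA S n r d y t) (hv : S.GX.Dg 1 v) :
    ∃ c : ℝ, S.T (S.es v) = algebraMap ℝ B c ∧ Iv S 1 (v - c • S.η) := by
  obtain ⟨c, hc⟩ := F.deg v hv
  refine ⟨c, hc, dg_sub hv F.ok.dη c, ?_⟩
  rw [map_sub, map_smul, map_sub, map_smul, hc, F.ok.Tη, Algebra.algebraMap_eq_smul_one, sub_self]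

theorem ko (F : FA S n r d y t) (hv : Iv S 1 v) (ho : Iv S y o) : v * o = 0 :=
  F.van _ _ (by omega) (iv_mul F.ok hv ho)

theorem t1o (F : FA S n r d y t) (ho : Iv S y o) (k : ℕ) :
    t 1 ^ k * o = ((r : ℝ) + 2) ^ k • (S.η ^ k * o) := by
  rw [← smul_mul_assoc, ← smul_pow]
  refine pow_eq (ko F ⟨dg_sub (F.dt 1) F.ok.dη _, ?_⟩ ho) k
  rw [map_sub, map_smul, map_sub, map_smul, F.c1, F.ok.Tη, Algebra.smul_def, map_add, map_natCast,
    map_ofNat, mul_one, sub_self]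

theorem vol (F : FA S n r d y t) (ho : Tp S d y o) : 0 < S.GX.int (t 1 ^ d * o) := by
  rw [t1o F ho.1, map_smul]
  exact mul_pos (by positivity) ho.2.2

theorem kap (F : FA S n r d y t) (ho : Tp S d y o) (hm : S.GX.Dg d m) :
    ∃ g : ℝ, (m - g • t 1 ^ d) * o = 0 := by
  refine ⟨S.GX.int (m * o) / S.GX.int (t 1 ^ d * o), z0 F.ok (F.ok.gx.dg_mul _ _ _ _
    (dg_sub hm (Elr.dg_pow F.ok.gx (F.dt 1) d) _) ho.1.1) (by rw [F.dim, add_comm]) ?_⟩
  rw [sub_mul, smul_mul_assoc, map_sub, map_smul, smul_eq_mul, div_mul_cancel₀ _ (vol F ho).ne',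
    sub_self]

theorem kap1 (F : FA S n r (d + 1) y t) (ho : Tp S (d + 1) y o) (hm : S.GX.Dg d m) :
    ∃ g : ℝ, (m - g • t 1 ^ d) * o = 0 := by
  have g := F.ok.gx
  obtain ⟨c, hc⟩ := kap F ho (g.dg_mul _ _ _ _ hm (F.dt 1))
  refine ⟨c, pd_dg g (k := 1) (g.dg_mul _ _ _ _ (dg_sub hm (Elr.dg_pow g (F.dt 1) d) _) ho.1.1)
    (by rw [F.dim]; omega) fun b hb => ?_⟩
  obtain ⟨x, -, hx⟩ := d1 F hb
  have e1 := t1o F ho.1 1
  have e2 := ko F hx ho.1
  have e : ((r : ℝ) + 2) • ((m - c • t 1 ^ d) * o * b) = 0 := by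
    simp only [Algebra.smul_def, pow_one] at e1 e2 hc ⊢
    linear_combination algebraMap ℝ A x * hc - algebraMap ℝ A x *
      (m - algebraMap ℝ A c * t 1 ^ d) * e1 + algebraMap ℝ A (r + 2) *
      (m - algebraMap ℝ A c * t 1 ^ d) * e2
  rw [(smul_eq_zero.1 e).resolve_left (by positivity), map_zero]

theorem ann (h : S.OK0 n r) (ho : Iv S y o) (hb : b * S.es o = 0) (c : B) (i : ℕ) :
    S.GX.pr i (S.el (c * b)) * o = 0 := by
  rw [← prm h.gx i _ ho.1, ← h.proj, mul_assoc, hb, mul_zero, map_zero, map_zero]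

theorem k0 (F : FA S n r d y t) (ho : Tp S d y o) (hb : b * S.es o = 0) (hv : S.GX.Dg k v)
    (hk : k = n) (c : B) : c * b * S.es v ∈ Z S := by
  have h := F.ok
  obtain ⟨x, hx⟩ := h.h0 _ (dpr h.gx 0 (S.el (c * b)))
  have e := ann h ho.1 hb c 0
  have e' := congrArg (fun a => S.GX.int (S.η ^ d * a)) e
  simp only [hx, ← Algebra.smul_def, mul_smul_comm, map_smul, mul_zero, map_zero] at e'
  show S.GU.int _ = 0
  rw [← h.el_int, h.proj, ← h.gx.int_pr, ← hk, ← zero_add k, prm h.gx 0 _ hv, hx,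
    (mul_eq_zero.1 e').resolve_right ho.2.2.ne', map_zero, zero_mul, map_zero]

theorem k1 (F : FA S n r (d + 1) y t) (ho : Tp S (d + 1) y o) (hb : b * S.es o = 0)
    (hm : S.GX.Dg (d + 1) m) (h0 : m * o = 0) (hz : Iv S j z) (hj : j + 1 = y) (c : B) :
    c * b * S.es (m * z) ∈ Z S := by
  have h := F.ok
  obtain ⟨x, -, hx⟩ := d1 F (dpr h.gx 1 (S.el (c * b)))
  have e : x • (S.η ^ (d + 1) * o) = 0 := by
    have e1 := ann h ho.1 hb c 1
    have e2 := ko F hx ho.1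
    simp only [Algebra.smul_def] at e2 ⊢
    linear_combination S.η ^ d * e1 - S.η ^ d * e2
  have e' := congrArg S.GX.int e
  rw [map_smul, map_zero] at e'
  rw [(mul_eq_zero.1 e').resolve_right ho.2.2.ne', zero_smul, sub_zero] at hx
  obtain ⟨w, hw⟩ := ho.2.1 _ (by simpa only [← hj, add_comm] using iv_mul h hx hz)
  show S.GU.int _ = 0
  rw [← h.el_int, h.proj, ← h.gx.int_pr, show n = 1 + (d + 1 + j) by rw [F.dim]; omega,
    prm h.gx 1 _ (h.gx.dg_mul _ _ _ _ hm hz.1), mul_left_comm, hw, mul_smul_comm, h0, smul_zero,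
    map_zero]

/-! ### power sums -/

theorem nw {s : ℕ → B} (hz : ∀ j, 3 < j → ne s j = 0) : s 2 = s 1 * s 1 - 2 * ne s 2 ∧
    s 3 = s 1 * s 2 - ne s 2 * s 1 + ne s 3 * 3 ∧
    ∀ j, s (j + 4) = s 1 * s (j + 3) - ne s 2 * s (j + 2) + ne s 3 * s (j + 1) := by
  obtain ⟨s', s0, s1⟩ : ∃ s' : ℕ → B, s' 0 = 3 ∧ ∀ k, s' (k + 1) = s (k + 1) :=
    ⟨fun k => if k = 0 then 3 else s k, rfl, fun _ => rfl⟩
  obtain ⟨n1, n2, n3⟩ := newton3 (s := s') (e := ne s)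
    ⟨(ne_spec s).1, fun j => by simp only [s1]; exact (ne_spec s).2 j⟩ s0 hz
  have n4 := n3 0
  simp only [s1, s0, ← n1] at n2 n3 n4
  exact ⟨n2, n4, fun j => by simpa only [s1] using n3 (j + 1)⟩

theorem nw2 (F : FA S n r 2 y t) : 3 * t 1 * t 2 - t 1 ^ 3 - 2 * t 3 = 0 ∧
    2 * t 1 ^ 2 * t 2 + t 2 ^ 2 - t 1 ^ 4 - 2 * t 4 = 0 := by
  have z := F.rank _ (ne_spec t)
  obtain ⟨a2, a3, a4⟩ := nw (s := t) fun j hj => z j (by omega)
  have a4 := a4 0
  simp only [z 3 (by norm_num), Nat.zero_add] at a3 a4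
  exact ⟨by linear_combination -2 * a3 + t 1 * a2,
    by linear_combination -2 * a4 - 2 * t 1 * a3 + (t 1 ^ 2 + t 2) * a2⟩

theorem tp (F : FA S n r d y t) (k : ℕ) :
    S.T (S.es (t k)) = S.T ((2 * u S) ^ k - S.pE k) := by
  have e1 := congrArg S.T (F.ok.ses k)
  have e2 := F.inv k
  rw [map_add, map_add, F.ok.TK, τu] at e1
  rw [map_sub, map_sub] at e2
  rw [map_sub]
  linear_combination e1 - e2

theorem s1 (F : FA S n 1 d y t) :
    ∃ a, S.T a = 0 ∧ ∀ k, S.T (S.es (t k)) = S.T ((2 * u S) ^ k - (a - u S) ^ k) := by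
  refine ⟨u S + S.pE 1, ?_, fun k => ?_⟩
  · simpa [sum_range_succ, F.ok.E0, u] using F.ok.inv 1
  rw [tp F, add_sub_cancel_left]
  cases k with
  | zero => rw [F.ok.E0, pow_zero, pow_zero, Nat.cast_one]
  | succ k => rw [Ma.RelH.pow_of (ne_spec S.pE) (F.ok.rank _ (ne_spec S.pE)) k]

/-- the power sums of two roots -/
def pw (a e : B) : ℕ → B
  | 0 => 2
  | 1 => a
  | k + 2 => pw a e (k + 1) * a - pw a e k * e

theorem s2 (F : FA S n 2 d y t) : ∃ a f, S.T a = 0 ∧ S.T f = 0 ∧ ∀ k, S.T (S.es (t k)) =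
    S.T ((2 * u S) ^ k - pw (a - 2 * u S) (f - a * u S + u S ^ 2) k) := by
  have h := F.ok
  have z := h.rank _ (ne_spec S.pE)
  have h0 : S.pE 0 = 2 := by rw [h.E0]; norm_num
  obtain ⟨a2, a3, a4⟩ := nw (s := S.pE) fun j hj => z j (by omega)
  simp only [z 3 (by norm_num), zero_mul, add_zero] at a3 a4
  have k1 : S.T (2 * u S + S.pE 1) = 0 := by simpa [sum_range_succ, h0, u] using h.inv 1
  have k2 : S.T (2 * u S ^ 2 + 2 * (S.pE 1 * u S) + S.pE 2) = 0 := by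
    rw [← h.inv 2]
    simp only [sum_range_succ, sum_range_zero, h0, u, Nat.choose, Nat.reduceSub, Nat.reduceAdd]
    exact congrArg _ (by push_cast; algebra)
  have e : ∀ k, S.pE k = pw (S.pE 1) (ne S.pE 2) k ∧
      S.pE (k + 1) = pw (S.pE 1) (ne S.pE 2) (k + 1) := fun k => by
    induction k with
    | zero => exact ⟨h0, rfl⟩
    | succ k ih =>
      refine ⟨ih.2, ?_⟩
      rw [pw, ← ih.1, ← ih.2]
      rcases k with _ | _ | k
      · rw [h0]; linear_combination a2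
      · linear_combination a3
      · linear_combination a4 k
  refine ⟨2 * u S + S.pE 1, ne S.pE 2 + (2 * u S + S.pE 1) * u S - u S ^ 2, k1, LeiH.half ?_,
    fun k => ?_⟩
  · rw [← LeiH.T2, mul_zero, ← sub_self (0 : B)]
    nth_rewrite 1 [← mul_zero (2 * u S + S.pE 1), ← k1, ← LeiH.ker h _ _ k1]
    rw [← k2, ← map_sub]
    exact congrArg _ (by linear_combination a2)
  · rw [tp F, (e k).1]
    congr 3 <;> ring

end Vale.Agent.P280Z.Pr.AlgH
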