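import Vale.Agent.P280Z.Rh.Defs
import Vale.Agent.P280Z.Hr.Td
import Vale.Agent.P280Z.Ld.Defs

/-!
# P280Z, block Pr: all fibres have dimension at least two (definitions, rows)
-/

open scoped Manifold ContDiff Topology Matrix
open Set Filter
open Vale.Agent.P272.K Vale.Agent.P285.H281.FD Vale.Agent.P281Z
open Vale.Agent.P277Z.Slc (dd)
open Vale.Agent.P277.HD (pull)
open Vale.Agent.P231.ChW (NewtonRec)
open Vale.Agent.P280Z.Ld (h0 Va)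
open Vale.Agent.P280Z.Gm (Fa)
open Vale.Agent.P280Z.Rh

noncomputable section

namespace Vale.Agent.P280Z.Pr

/-! ### algebra -/

section alg
variable {A B : Type} [CommRing A] [Algebra ℝ A] [CommRing B] [Algebra ℝ B]

/-- invariant classes of degree `k` -/
def Iv (S : NS A B) (k : ℕ) (a : A) : Prop := S.GX.Dg k a ∧ S.T (S.es a) = 0

/-- classes of degree one on the curves -/
def Un (S : NS A B) (x : A) : Prop := S.GX.Dg 1 x ∧ S.T (S.es x) = 1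

/-- a family and its quotient, of dimension `y`, with fibres of dimension `d`; `t k` are the power
sums of the relative tangent bundle -/
structure FA (S : NS A B) (n r d y : ℕ) (t : ℕ → A) : Prop where
  ok : S.OK0 n r
  dim : n = y + d
  dt : ∀ k, S.GX.Dg k (t k)
  t0 : t 0 = d
  rank : ∀ e, NewtonRec ℝ t e → ∀ j, d < j → e j = 0
  inv : ∀ k, S.T (S.es (S.pX k - t k)) = 0
  c1 : S.T (S.es (t 1)) = (r : B) + 2
  deg : ∀ a, S.GX.Dg 1 a → ∃ c : ℝ, S.T (S.es a) = algebraMap ℝ B c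
  van : ∀ k a, y < k → Iv S k a → a = 0
  top : ∃ o, Iv S y o ∧ (∀ a, Iv S y a → ∃ c : ℝ, a = c • o) ∧ 0 < S.GX.int (S.η ^ d * o)
  pd : ∀ k a, Iv S k a → (∀ j b, Iv S j b → S.GX.int (S.η ^ d * (a * b)) = 0) → a = 0

/-- the fibres have the numbers of the projective plane -/
def Pl (S : NS A B) (y : ℕ) (t : ℕ → A) : Prop :=
  ∀ o, Iv S y o → 3 * S.GX.int (t 2 * o) = S.GX.int (t 1 ^ 2 * o)

/-- the push forward of `t 1 ^ (d + 1)` vanishes -/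
def Cm0 (S : NS A B) (d y : ℕ) (t : ℕ → A) : Prop :=
  ∀ j z, j + 1 = y → Iv S j z → S.GX.int (t 1 ^ (d + 1) * z) = 0

/-- a multiple of the fourth Todd class -/
def td4 (t : ℕ → A) : A := 15 * t 1 ^ 4 - 30 * t 1 ^ 2 * t 2 + 5 * t 2 ^ 2 + 2 * t 4

end alg

/-- a statement for all numerical structures -/
def ForS (P : ∀ {A B : Type} [CommRing A] [Algebra ℝ A] [CommRing B] [Algebra ℝ B],
    NS A B → (ℕ → A) → Prop) : Prop :=
  ∀ {A B : Type} [CommRing A] [Algebra ℝ A] [CommRing B] [Algebra ℝ B] (S : NS A B) (t : ℕ → A),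
    P S t

/-- row RD -/
def RD : Prop := ForS fun S t => ∀ n r d y, FA S n r d y t → r + 1 ≤ d

/-- row G2 -/
def G2 : Prop := ForS fun S t => ∀ n y, FA S n 1 2 y t → Pl S y t ∨
  ∀ o, Iv S y o → 3 * S.GX.int (t 2 * o) = -S.GX.int (t 1 ^ 2 * o)

/-- row CM2 -/
def CM2 : Prop := ForS fun S t => ∀ n y, FA S n 1 2 y t → Pl S y t → Cm0 S 2 y t

/-- row CM3 -/
def CM3 : Prop := ForS fun S t => ∀ n y, FA S n 2 3 y t → Cm0 S 3 y t

/-- row CMQ -/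
def CMQ : Prop := ForS fun S t => ∀ n y, FA S n 1 3 y t → ∀ j z, j + 1 = y → Iv S j z →
  S.GX.int (td4 t * z) = 0 → S.GX.int (t 1 ^ 4 * z) = 0

/-- row ALX -/
def ALX : Prop := ForS fun S t => ∀ n r d y, FA S n r d y t → Cm0 S d y t → ∀ x, Un S x →
  x ^ (d + 1) = 0 → t 1 = ((r : ℝ) + 2) • x

/-- row C236 -/
def C236 : Prop := ForS fun S t => FA S 6 1 2 4 t → Pl S 4 t → ∀ x, Un S x → x ^ 4 = 0 →
  S.GX.int (x ^ 2 * (3 * x - t 1) ^ 4) = 0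

/-- row S226 -/
def S226 : Prop := ForS fun S t => FA S 6 1 2 4 t → Pl S 4 t → ∀ x h, Un S x → x ^ 5 = 0 →
  h = 3 * x - t 1 →
  S.GX.int (t 3 * (x ^ 2 * (x - h))) =
    12 * S.GX.int (x ^ 4 * h ^ 2) - 3 * S.GX.int (x ^ 3 * h ^ 3) ∧
  S.GX.int (t 3 * (x * h ^ 2)) = 9 * S.GX.int (x ^ 4 * h ^ 2) - 6 * S.GX.int (x ^ 3 * h ^ 3) ∧
  S.GX.int (t 3 * h ^ 3) = 0

/-! ### geometry -/

/-- the power sums of the relative tangent bundle -/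
def tr (T : CT) {n y : ℕ} {V : Mf n} {Y : Mf y} {π : V.X → Y.X} (h : HolM n y π) (k : ℕ) : T.H V :=
  T.ps V (VB.tan n V.X) k - T.pull h (T.ps Y (VB.tan y Y.X) k)

/-- the numerical structure of a family -/
abbrev nsm {T : CT} {n : ℕ} {V : Mf n} (F : Fm T V) : NS (T.H V) (T.H F.U) :=
  T.ns F.sp.hol F.se.hol F.η F.Tb F.E

/-- row FAX -/
def FAX : Prop := ∀ T : CT, T.OK → ∀ {n : ℕ} {V : Mf n} {J : Type} (F : J → Fm T V) (j : J)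
  (Q : Qt F {j}), ConnectedSpace V.X → FA (nsm (F j)) n (F j).m Q.d Q.y (tr T Q.sub.hol)

/-- row ADJF: the tangent bundle of a fibre -/
def ADJF : Prop := ∀ T : CT, T.OK → ∀ {n y d : ℕ} {V : Mf n} {Y : Mf y} {Z : Mf d} {π : V.X → Y.X}
  (h : Sub n y π) {i : Z.X → V.X} {b : Y.X} (hi : Emb d n i (π ⁻¹' {b})), n = y + d → ∀ k,
  T.ps Z (VB.tan d Z.X) (k + 1) = T.pull hi.hol (T.ps V (VB.tan n V.X) (k + 1)) ∧
    T.pull hi.hol (T.pull h.hol (T.ps Y (VB.tan y Y.X) (k + 1))) = 0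

/-- row G3X: fibres of dimension two -/
def G3X : Prop := ∀ T : CT, Th T → ∀ {n y : ℕ} {V : Mf n} {Y : Mf y} {π : V.X → Y.X}
  (h : Sub n y π), n = y + 2 → Fa T V → ConnectedSpace Y.X → (∀ b, IsConnected (π ⁻¹' {b})) →
  ∀ c c' : ℝ, T.push π (tr T h.hol 1 ^ 2) = algebraMap ℝ _ c →
    T.push π (tr T h.hol 2) = algebraMap ℝ _ c' → 3 * c' ≠ -c ∧ (3 * c' = c → c = 9)

/-- row H0P: the sections of a pull back -/
def H0P : Prop := ∀ {n y : ℕ} {V : Mf n} {Y : Mf y} (π : V.X → Y.X) (A : Bd Y.X), Sub n y π →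
  (∀ b, IsConnected (π ⁻¹' {b})) → IsLB y A → h0 n (pull π A) = h0 y A

/-- row GRR4 -/
def GRR4 : Prop := ∀ T : CT, Th T → ∀ {V : Mf 6} {Y : Mf 3} {π : V.X → Y.X} (h : Sub 6 3 π),
  Fa T V → Fa T Y → (∀ b, IsConnected (π ⁻¹' {b})) →
  T.int V (td4 (tr T h.hol) * T.pull h.hol (T.ps Y (VB.tan 3 Y.X) 1 ^ 2)) = 0

/-- row JAC: maps without ramification -/
def JAC : Prop := ∀ T : CT, T.OK → ∀ {n : ℕ} {V W : Mf n} {f : V.X → W.X} (h : HolM n n f),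
  ConnectedSpace V.X → V.Kah →
  T.ps V (VB.tan n V.X) 1 = T.pull h (T.ps W (VB.tan n W.X) 1) →
  (∃ a, T.int V (T.pull h a) ≠ 0) → ∀ x, Imm n n f x

/-- the two maps separate tangent vectors -/
def Sep {n y m : ℕ} {V : Mf n} {Y : Mf y} {M : Mf m} (π : V.X → Y.X) (μ : V.X → M.X) : Prop :=
  ∀ x v, Df n y π x v = 0 → Df n m μ x v = 0 → v = 0

/-- the value of a vector field in the preferred chart -/
def val {n : ℕ} {V : Mf n} (ξ : Chart n V.X → Cm n → Cm n) (x : V.X) : Cm n :=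
  ξ (chartAt (Cm n) x) (chartAt (Cm n) x x)

/-- row LIFT: simultaneous lifts of vector fields -/
def LIFT : Prop := ∀ {n y m : ℕ} {V : Mf n} {Y : Mf y} {M : Mf m} (π : V.X → Y.X) (μ : V.X → M.X),
  HolM n y π → HolM n m μ → Sep π μ →
  (∀ x v, ∃ a c, Gp.IsField y a ∧ Gp.IsField m c ∧ val a (π x) = Df n y π x v ∧
    val c (μ x) = Df n m μ x v ∧
    ∀ z, ∃ w, val a (π z) = Df n y π z w ∧ val c (μ z) = Df n m μ z w) → Gp.Gen n V.X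

/-- row PROD: products -/
def PROD : Prop := ∀ T : CT, T.OK → ∀ {n y m : ℕ} {V : Mf n} {Y : Mf y} {M : Mf m} {π : V.X → Y.X}
  {μ : V.X → M.X} (h : Sub n y π) (k : Sub n m μ), n = m + y → V.Kah → ConnectedSpace M.X →
  (∀ b, IsConnected (μ ⁻¹' {b})) → (∃ c, T.Dg M 1 c ∧ tr T h.hol 1 = T.pull k.hol c) →
  (∃ a o, T.Dg Y y a ∧ T.int V (T.pull h.hol a * T.pull k.hol o) ≠ 0) → Gp.Gen y Y.X →
  Gp.Gen m M.X → Gp.Gen n V.X

/-- row HR6: a consequence of the relations of Hodge and Riemann -/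
def HR6 : Prop := ∀ T : CT, T.OK → ∀ (V : Mf 6) (x h : T.H V), T.Nn V x → T.Nn V h →
  (∀ s t : ℝ, 0 < s → 0 < t → T.Kc V (s • x + t • h)) →
  (∀ a, T.Dg V 1 a → ∃ s t : ℝ, a = s • x + t • h) → x ^ 5 = 0 → h ^ 5 = 0 →
  0 < T.int V (x ^ 2 * h ^ 4) → 0 < T.int V (x ^ 4 * h ^ 2) → T.int V (x ^ 3 * h ^ 3) ≠ 0

/-- row NEG: line bundles of negative degree on the curves of a family -/
def NEG : Prop := ∀ T : CT, T.OK → ∀ {n : ℕ} {V : Mf n} (F : Fm T V) (M : Bd V.X), IsLB n M →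
  (∃ z : ℤ, F.dg (T.c1 V M) = z) ∧ (F.dg (T.c1 V M) < 0 → h0 n M = 0)

section bas
variable {T : CT} {n : ℕ} {V : Mf n} (B : Bas T V)

open Classical in
/-- the sum of the classes `H i`, `i ∈ S` -/
def hS (S : Set B.J) : T.H V := ∑ i, if i ∈ S then B.H i else 0

/-- row POSJ -/
def Posj : Prop := ∀ S : Set B.J, (∃ w, T.Kc (B.Q S).Y w ∧ hS B Sᶜ = T.pull (B.Q S).sub.hol w) ∧
  0 < T.int V (hS B S ^ (B.Q S).d * hS B Sᶜ ^ (B.Q S).y)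

/-- row DIMJ -/
def Dimj : Prop := ∀ (S : Set B.J) (j : B.J), j ∉ S → (B.Q (insert j S)).y + (B.Q {j}).d ≤ (B.Q S).y

end bas

/-- row POSJ -/
def POSJ : Prop := ∀ T : CT, T.OK → ∀ {n : ℕ} {V : Mf n} (B : Bas T V), ConnectedSpace V.X → Posj B

/-- row DIMJ -/
def DIMJ : Prop := ∀ T : CT, T.OK → ∀ {n : ℕ} {V : Mf n} (B : Bas T V), ConnectedSpace V.X → Dimj B

/-! ### the flag manifold of dimension five -/

/-- one half of the data -/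
structure Hf (T : CT) {V : Mf 5} {Y : Mf 3} {π : V.X → Y.X} (h : Sub 5 3 π) (w : T.H Y)
    (x : T.H V) : Prop where
  conn : ConnectedSpace Y.X
  fib : ∀ b, IsConnected (π ⁻¹' {b})
  kc : T.Kc Y w
  can : T.c1 Y (Bd.can 3 Y.X) = (-4 : ℝ) • w
  int : ∀ L, IsLB 3 L → ∃ a : ℤ, T.c1 Y L = (a : ℝ) • w
  vol : T.push π (x ^ 2) = 1
  neg : ∀ M, IsLB 5 M → ∀ a b : ℝ, a < 0 → T.c1 V M = a • x + b • T.pull h.hol w → h0 5 M = 0

/-- two fibrations with fibres of dimension two on a manifold of dimension five -/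
structure T5 (T : CT) {V : Mf 5} {Y Y' : Mf 3} {π : V.X → Y.X} {π' : V.X → Y'.X} (h : Sub 5 3 π)
    (h' : Sub 5 3 π') (w : T.H Y) (w' : T.H Y') : Prop where
  th : Th T
  conn : ConnectedSpace V.X
  l : Hf T h w (T.pull h'.hol w')
  r : Hf T h' w' (T.pull h.hol w)
  can : T.c1 V (Bd.can 5 V.X) = (-3 : ℝ) • (T.pull h.hol w + T.pull h'.hol w')
  kc : ∀ a b : ℝ, 0 < a → 0 < b → T.Kc V (a • T.pull h.hol w + b • T.pull h'.hol w')
  eq : T.int Y (w ^ 3) = T.int Y' (w' ^ 3)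

theorem T5.symm {T : CT} {V : Mf 5} {Y Y' : Mf 3} {π : V.X → Y.X} {π' : V.X → Y'.X}
    {h : Sub 5 3 π} {h' : Sub 5 3 π'} {w : T.H Y} {w' : T.H Y'} (k : T5 T h h' w w') :
    T5 T h' h w' w :=
  ⟨k.th, k.conn, k.r, k.l, by rw [k.can, add_comm],
    fun a b ha hb => by rw [add_comm]; exact k.kc b a hb ha, k.eq.symm⟩

/-- a statement for all such data -/
def For5 (P : ∀ (T : CT) {V : Mf 5} {Y Y' : Mf 3} {π : V.X → Y.X} {π' : V.X → Y'.X},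
    Sub 5 3 π → Sub 5 3 π' → T.H Y → T.H Y' → Prop) : Prop :=
  ∀ (T : CT) {V : Mf 5} {Y Y' : Mf 3} {π : V.X → Y.X} {π' : V.X → Y'.X} (h : Sub 5 3 π)
    (h' : Sub 5 3 π') (w : T.H Y) (w' : T.H Y'), T5 T h h' w w' → P T h h' w w'

/-- row HILB -/
def HILB : Prop := For5 fun T V Y _ _ _ h h' w w' => T.int Y (w ^ 3) = 1 ∧
  T.RR V (T.pull h.hol w + T.pull h'.hol w') = 15

/-- row LB5 -/
def LB5 : Prop := For5 fun T _ Y _ _ _ _ _ w _ => T.int Y (w ^ 3) = 1 →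
  ∃ (L : Bd Y.X) (s : Fin 4 → L.ι → Y.X → ℂ), T.c1 Y L = w ∧ Va 3 L s

/-- the bilinear relation `m` holds on `V` -/
def Rl {V : Mf 5} {Y Y' : Mf 3} (π : V.X → Y.X) (π' : V.X → Y'.X) {L : Bd Y.X} {L' : Bd Y'.X}
    (s : Fin 4 → L.ι → Y.X → ℂ) (s' : Fin 4 → L'.ι → Y'.X → ℂ) (m : Matrix (Fin 4) (Fin 4) ℂ) :
    Prop :=
  ∀ z a a', π z ∈ L.U a → π' z ∈ L'.U a' →
    (fun i => s i a (π z)) ⬝ᵥ m *ᵥ (fun j => s' j a' (π' z)) = 0

/-- row REL5 -/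
def REL5 : Prop := For5 fun T V Y Y' π π' h h' w w' =>
  T.RR V (T.pull h.hol w + T.pull h'.hol w') = 15 → ∀ (L : Bd Y.X) (L' : Bd Y'.X) s s',
    T.c1 Y L = w → T.c1 Y' L' = w' → Va 3 L s → Va 3 L' s' → ∃ m, m ≠ 0 ∧ Rl π π' s s' m

/-- row INV5 -/
def INV5 : Prop := For5 fun T _ Y Y' π π' _ _ w w' => ∀ (L : Bd Y.X) (L' : Bd Y'.X) s s' m,
  T.c1 Y L = w → T.c1 Y' L' = w' → Va 3 L s → Va 3 L' s' → m ≠ 0 → Rl π π' s s' m → m.det ≠ 0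

/-- row SEP5 -/
def SEP5 : Prop := For5 fun T _ _ Y' π π' _ _ _ w' => ∀ (L' : Bd Y'.X)
  (s' : Fin 4 → L'.ι → Y'.X → ℂ), T.c1 Y' L' = w' → Va 3 L' s' → Sep π π'

/-- row FIN5 -/
def FIN5 : Prop := ∀ {V : Mf 5} {Y Y' : Mf 3} (π : V.X → Y.X) (π' : V.X → Y'.X) (L : Bd Y.X)
  (L' : Bd Y'.X) s s' m, HolM 5 3 π → HolM 5 3 π' → Va 3 L s → Va 3 L' s' → Sep π π' →
  m.det ≠ 0 → Rl π π' s s' m → Gp.Gen 5 V.X

/-- the output for the flag manifold -/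
def GEN5 : Prop := For5 fun _ V _ _ _ _ _ _ _ _ => Gp.Gen 5 V.X

theorem gen5_of (h1 : HILB) (h2 : LB5) (h3 : REL5) (h4 : INV5) (h5 : SEP5) (h6 : FIN5) : GEN5 := by
  intro T V Y Y' π π' h h' w w' k
  obtain ⟨a1, a2⟩ := h1 T h h' w w' k
  obtain ⟨L, s, b1, b2⟩ := h2 T h h' w w' k a1
  obtain ⟨L', s', c1, c2⟩ := h2 T h' h w' w k.symm (k.eq ▸ a1)
  obtain ⟨m, d1, d2⟩ := h3 T h h' w w' k a2 L L' s s' b1 c1 b2 c2
  exact h6 π π' L L' s s' m h.hol h'.hol b2 c2 (h5 T h h' w w' k L' s' c1 c2)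
    (h4 T h h' w w' k L L' s s' m b1 c1 b2 c2 d1 d2) d2

/-! ### the cases -/

/-- the family `j` splits off -/
def PRJ : Prop := ∀ T : CT, Th T → ∀ {n : ℕ} (V : Mf n) (B : Bas T V), IH n → Cls n V →
  ∀ i j : B.J, i ≠ j → (B.Q {j}).d = (B.Q {j}ᶜ).y →
  Cm0 (nsm (B.F j)) (B.Q {j}).d (B.Q {j}).y (tr T (B.Q {j}).sub.hol) → Gp.Gen n V.X

/-- two families -/
structure Two {T : CT} {n : ℕ} {V : Mf n} (B : Bas T V) (i j : B.J) : Prop where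
  th : Th T
  cls : Cls n V
  ne : i ≠ j
  all : ∀ k, k = i ∨ k = j
  pos : ∀ k, 0 < (B.F k).m

/-- fibres of dimension two -/
def PL2 : Prop := ∀ T : CT, Th T → ∀ {n : ℕ} (V : Mf n) (B : Bas T V), Cls n V → ∀ j,
  (B.F j).m = 1 → (B.Q {j}).d = 2 → Pl (nsm (B.F j)) (B.Q {j}).y (tr T (B.Q {j}).sub.hol) ∧
    T.push (B.Q {j}).π (tr T (B.Q {j}).sub.hol 1 ^ 2) = 9

/-- case `(2, 2; 5)` -/
def K225 : Prop := ∀ (T : CT) (V : Mf 5) (B : Bas T V) i j, Two B i j → (B.Q {i}).d = 2 →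
  (B.Q {j}).d = 2 → Gp.Gen 5 V.X

/-- case `(2, 3; 6)` -/
def K236 : Prop := ∀ (T : CT) (V : Mf 6) (B : Bas T V) i j, Two B i j → (B.Q {i}).d = 3 →
  (B.Q {j}).d = 2 → False

/-- case `(2, 2; 6)` -/
def K226 : Prop := ∀ (T : CT) (V : Mf 6) (B : Bas T V) i j, Two B i j → (B.Q {i}).d = 2 →
  (B.Q {j}).d = 2 → False

/-- case `(3, 3; 6)` -/
def K336 : Prop := ∀ (T : CT) (V : Mf 6) (B : Bas T V) i j, Two B i j → (B.Q {i}).d = 3 →
  (B.Q {j}).d = 3 → Cm0 (nsm (B.F j)) (B.Q {j}).d (B.Q {j}).y (tr T (B.Q {j}).sub.hol)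

end Vale.Agent.P280Z.Pr
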