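import Vale.Agent.P280Z.Pr.Defs
import Vale.Agent.P280Z.Gm.All
import Vale.Agent.P280Z.En.Ko

/-!
# P280Z, block Pr: the bases of the two fibrations are embedded by four sections
-/

open scoped Manifold ContDiff Topology
open Set Filter
open Vale.Agent.P272.K Vale.Agent.P285.H281.FD Vale.Agent.P281Z
open Vale.Agent.P277Z.Slc (lin isLB_can)

noncomputable section

namespace Vale.Agent.P280Z.Pr

namespace Lb5H

theorem one {T : CT} {V : Mf 5} {Y Y' : Mf 3} {π : V.X → Y.X} {π' : V.X → Y'.X} {h : Sub 5 3 π}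
    {h' : Sub 5 3 π'} {w : T.H Y} {w' : T.H Y'} (k : T5 T h h' w w') (hv : T.int Y (w ^ 3) = 1)
    (y' : Y'.X) : ∃ (M : Bd Y.X) (σ : M.ι → Y.X → ℂ), IsLB 3 M ∧ IsSec 3 M σ ∧ T.c1 Y M = w ∧
      ∀ y, (∀ v, π' v = y' → π v ≠ y) → NZ M σ y := by
  have hT := k.th.ok
  have hb : ∀ a, IsLB 3 (![Bd.can 3 Y.X] a) := Fin.forall_fin_one.2 isLB_can
  have hA := lb_lin hb ![-1]
  have cA : T.c1 Y (lin ![Bd.can 3 Y.X] ![-1]) = (4 : ℝ) • w := by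
    rw [hT.c1.lin Y _ _ hb, Fin.sum_univ_one]
    simp [k.l.can]
  obtain ⟨m, r, s, hm, hs⟩ := Ld.va Y _ hA (hT.kp Y _ hA (cA ▸ hT.po.smul 4 (by norm_num) k.l.kc))
  have cH := hT.c1.pow Y _ m hA
  rw [cA, smul_smul] at cH
  have hν : 0 < ((m : ℝ) * 4) ^ 2 := by positivity
  obtain ⟨⟨Z, i, hi⟩, c2⟩ := Gm.fibi T hT (d := 2) π' y' rfl h'
  have hg := h.hol.comp hi.hol
  have a3 : T.int Z (T.pull hg (T.c1 Y ((lin ![Bd.can 3 Y.X] ![-1]).pow m) ^ 2)) =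
      ((m : ℝ) * 4) ^ 2 := by
    rw [hT.rg.pull_comp hi.hol h.hol hg fun _ => rfl]
    refine c2 Z i hi _ _ ?_
    rw [cH, smul_pow, map_smul, map_smul, map_pow, k.r.vol, Algebra.algebraMap_eq_smul_one]
  obtain ⟨M, σ, hM, hσ, -, b2, b3, b4⟩ := Gm.up T hT Y Z _ hg _ s k.l.conn hs (a3 ▸ hν)
  obtain ⟨a, ha⟩ := k.l.int M hM
  have b5 : T.int Y (T.c1 Y ((lin ![Bd.can 3 Y.X] ![-1]).pow m) ^ 2 * T.c1 Y M) =
      ((m : ℝ) * 4) ^ 2 * a := by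
    rw [cH, ha, smul_pow, smul_mul_smul_comm, ← pow_succ, map_smul, hv, smul_eq_mul, mul_one]
  rw [a3, b5] at b4
  rw [b5] at b3
  have a0 : 0 < a := by exact_mod_cast (mul_pos_iff_of_pos_left hν).1 b3
  have a1 : a ≤ 1 := by exact_mod_cast (mul_le_iff_le_one_right hν).1 b4
  refine ⟨M, σ, hM, hσ, by rw [ha, show a = 1 by omega, Int.cast_one, one_smul],
    fun y hy => b2 y ?_⟩
  rintro ⟨z, rfl⟩
  exact hy (i z) (hi.mem z) rfl

end Lb5H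

theorem lb5 : LB5 := by
  intro T V Y Y' π π' h h' w w' k hv
  have hT := k.th.ok
  have := k.l.conn
  have := k.r.conn
  have hF : Gm.Fa T Y := by
    rw [Gm.Fa, k.l.can, ← neg_smul, neg_neg]
    exact hT.po.smul 4 (by norm_num) k.l.kc
  obtain ⟨L, -, hL, -, cL, -⟩ := Lb5H.one k hv (Classical.arbitrary _)
  have md : En.MD T (n := 2) Y L ((2 : ℝ) • w) 1 := by
    refine ⟨inferInstance, hL, fun y => ?_, cL ▸ k.l.kc,
      hT.po.mono (hT.po.smul 2 two_pos k.l.kc) fun _ => le_top, ?_, ?_, ?_⟩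
    · obtain ⟨⟨Z, i, hi⟩, -⟩ := Gm.fibi T hT (d := 2) π y rfl h
      obtain ⟨y', hy⟩ := (Gm.bad.2 Z Y' _ (by norm_num) (h'.hol.comp hi.hol)).nonempty
      obtain ⟨M, σ, hM, hσ, cM, hz⟩ := Lb5H.one k hv y'
      obtain ⟨t, ht⟩ := Gm.FunH.liso hT (Gm.rt T hT k.th.hrr).2 k.l.conn hF hL hM
        (cL.trans cM.symm)
      refine ⟨_, ht.sec hL hM hσ, ht.nz hM (hz y fun v e1 e2 => hy ?_)⟩
      obtain ⟨z, rfl⟩ := hi.ex (show v ∈ π ⁻¹' {y} from e2)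
      exact ⟨z, e1⟩
    · rw [k.l.can, cL]
      push_cast
      module
    · rw [cL, mul_smul_comm, ← pow_succ, map_smul, hv]
      norm_num
    · rw [cL, hv, Nat.cast_one]
  obtain ⟨b⟩ := md.basis hT
  exact ⟨L, _, cL, (md.emb hT b).2.1⟩

end Vale.Agent.P280Z.Pr
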